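import Vale.Agent.P014S.Gal

/-!
# Twists of `X₀(17)`: the two-descent over `ℚ(i)`
-/

namespace Vale.Agent.P014S

open WeierstrassCurve Vale.Agent.P014 Vale.Agent.P014F
open scoped Classical

attribute [local instance] galQb

variable {E : WeierstrassCurve ℚ} {D : ℚ}

/-- the two-covering attached to `A + B i` has a point over `K` -/
def Sol2 {K : Type*} [Field K] (A B D : K) : Prop :=
  ∃ s t w z : K, ¬(s = 0 ∧ t = 0 ∧ w = 0 ∧ z = 0) ∧
    A * (s ^ 2 - t ^ 2) - 2 * B * s * t = (A ^ 2 + B ^ 2) * w ^ 2 + 15 * D * z ^ 2 ∧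
    B * (s ^ 2 - t ^ 2) + 2 * A * s * t = -8 * D * z ^ 2

theorem sol_aux (S : Sp E D) (K L : Type) [Field K] [Field L] [Algebra ℚ K] [Algebra ℚ L]
    [Algebra K L] [IsScalarTower ℚ K L] [IsGalois K L] {j β₁ β₂ : L} (hj : j ^ 2 = -1) {A B : ℚ}
    (n₁ : β₁ ≠ 0) (n₂ : β₂ ≠ 0) (p₁ : β₁ ^ 2 = algebraMap ℚ L A + algebraMap ℚ L B * j)
    (p₂ : β₂ ^ 2 = algebraMap ℚ L A - algebraMap ℚ L B * j) (R : (E⁄L).toAffine.Point)
    (key : ∀ τ : L ≃ₐ[K] L, ∃ e d : ℤˣ, Beh j τ β₁ β₂ e d ∧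
      Affine.Point.map (W' := E) (τ : L →ₐ[K] L) R = R +
        tor (E⁄L) (rt D j) (rt D (-j)) (r0 L D) e d) :
    Sol2 (algebraMap ℚ K A) (algebraMap ℚ K B) (algebraMap ℚ K D) := by
  have S' := S.spl hj
  have : CharZero L := algebraRat.charZero L
  have inj := (algebraMap K L).injective
  have cm (r : ℚ) : algebraMap K L (algebraMap ℚ K r) = algebraMap ℚ L r :=
    (IsScalarTower.algebraMap_apply ℚ K L r).symm
  have j0 : j ≠ -j := fun h => by
    have : j = 0 := by linear_combination h / 2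
    rw [this] at hj
    norm_num at hj
  have fin : ∀ (t₁ t₂ : L) (w z : K), (∀ τ : L ≃ₐ[K] L, Beh j τ t₁ t₂ 1 1) → ¬ (w = 0 ∧ z = 0) →
      β₁ ^ 2 * t₁ ^ 2 = β₁ ^ 2 * β₂ ^ 2 * algebraMap K L w ^ 2 +
        (15 - 8 * j) * algebraMap ℚ L D * algebraMap K L z ^ 2 →
      β₂ ^ 2 * t₂ ^ 2 = β₁ ^ 2 * β₂ ^ 2 * algebraMap K L w ^ 2 +
        (15 + 8 * j) * algebraMap ℚ L D * algebraMap K L z ^ 2 →
      Sol2 (algebraMap ℚ K A) (algebraMap ℚ K B) (algebraMap ℚ K D) := by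
    intro t₁ t₂ w z h h0 e₁ e₂
    obtain ⟨s, t, a, b⟩ := pair_coord hj h
    rw [p₁, p₂, a] at e₁
    rw [p₁, p₂, b] at e₂
    refine ⟨s, t, w, z, fun h => h0 h.2.2, inj ?_, inj ?_⟩
    all_goals simp only [map_sub, map_add, map_mul, map_pow, map_ofNat, map_neg, cm]
    all_goals
      generalize algebraMap K L s = s at e₁ e₂ ⊢
      generalize algebraMap K L t = t at e₁ e₂ ⊢
      generalize algebraMap K L w = w at e₁ e₂ ⊢
      generalize algebraMap K L z = z at e₁ e₂ ⊢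
      generalize algebraMap ℚ L A = A at e₁ e₂ ⊢
      generalize algebraMap ℚ L B = B at e₁ e₂ ⊢
      generalize algebraMap ℚ L D = D at e₁ e₂ ⊢
    · linear_combination (e₁ + e₂) / 2 - (A * t ^ 2 + 2 * B * s * t + B ^ 2 * w ^ 2) * hj
    · linear_combination (e₂ - e₁) * j / 2 +
        (B * s ^ 2 + 2 * A * s * t + B * t ^ 2 * (j ^ 2 - 1) + 8 * D * z ^ 2) * hj
  rcases S'.cases' R with ⟨e₀, d₀, rfl⟩ | ⟨u₁, u₂, u₃, hu, rfl⟩
  · refine fin ((e₀ : ℤ) * β₂) ((d₀ : ℤ) * β₁) 1 0 (fun τ => ?_) (fun h => one_ne_zero h.1) ?_ ?_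
    · obtain ⟨e, d, h1, h3⟩ := key τ
      rw [map_tor', S'.tor_add] at h3
      rcases h1 with ⟨a, b, c⟩ | ⟨a, b, c⟩
      · rw [show (τ : L →ₐ[K] L) j = j from a] at h3
        obtain ⟨h4, h5⟩ := S'.tor_inj h3
        rw [left_eq_mul.1 h4] at b
        rw [left_eq_mul.1 h5] at c
        exact .inl ⟨a, by rw [map_mul, map_intCast, c]; ring, by rw [map_mul, map_intCast, b]; ring⟩
      · rw [show (τ : L →ₐ[K] L) j = -j from a, neg_neg, tor_swap] at h3
        obtain ⟨h4, h5⟩ := S'.tor_inj h3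
        refine .inr ⟨a, ?_, ?_⟩
        · rw [map_mul, map_intCast, c, ← mul_assoc, ← Int.cast_mul, ← Units.val_mul, ← h5]
          simp
        · rw [map_mul, map_intCast, b, ← mul_assoc, ← Int.cast_mul, ← Units.val_mul, ← h4]
          simp
    · rw [mul_pow, sq_unit, map_one, map_zero]
      ring
    · rw [mul_pow, sq_unit, map_one, map_zero]
      ring
  · have k (τ : L ≃ₐ[K] L) : Beh j τ (u₁ / β₁) (u₂ / β₂) 1 1 ∧
        τ (u₃ / (β₁ * β₂)) = u₃ / (β₁ * β₂) := by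
      obtain ⟨e, d, h1, h3⟩ := key τ
      obtain ⟨h4, h5⟩ := (act_hf S hj _ hu e d).1 h3
      have ue := unit_ne (F := L) e
      have ud := unit_ne (F := L) d
      have h6 : τ u₃ = (e : ℤ) * (d : ℤ) * u₃ := h5
      rcases h1 with ⟨a, b, c⟩ | ⟨a, b, c⟩ <;> rcases h4 with ⟨a', b', c'⟩ | ⟨a', b', c'⟩
      · refine ⟨.inl ⟨a, ?_, ?_⟩, ?_⟩
        · rw [map_div₀, b, show τ u₁ = _ from b', mul_div_mul_left _ _ ue]
          simp
        · rw [map_div₀, c, show τ u₂ = _ from c', mul_div_mul_left _ _ ud]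
          simp
        · rw [map_div₀, map_mul, b, c, h6, mul_mul_mul_comm,
            mul_div_mul_left _ _ (mul_ne_zero ue ud)]
      · exact absurd (a.symm.trans a') j0
      · exact absurd (a'.symm.trans a) j0
      · refine ⟨.inr ⟨a, ?_, ?_⟩, ?_⟩
        · rw [map_div₀, b, show τ u₂ = _ from b', mul_div_mul_left _ _ ue]
          simp
        · rw [map_div₀, c, show τ u₁ = _ from c', mul_div_mul_left _ _ ud]
          simp
        · rw [map_div₀, map_mul, b, c, h6, mul_comm (_ * β₂), mul_mul_mul_comm,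
            mul_div_mul_left _ _ (mul_ne_zero ue ud)]
    obtain ⟨w, hw⟩ := (InfiniteGalois.mem_range_algebraMap_iff_fixed _).2 fun τ => (k τ).2
    have : CharZero K := algebraRat.charZero K
    obtain ⟨h1, h2⟩ := hu
    have e := r0_eq L D
    unfold rt at h1 h2
    refine fin _ _ w (1 / 2) (fun τ => (k τ).1) (fun h => by norm_num at h) ?_ ?_
    · rw [hw, map_div₀, map_one, map_ofNat]
      field_simp
      linear_combination 4 * h2 + e
    · rw [hw, map_div₀, map_one, map_ofNat]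
      field_simp
      linear_combination 4 * h2 - 4 * h1 + e

/-- the two-torsion points over the algebraic closure -/
noncomputable abbrev tb (E : WeierstrassCurve ℚ) (D : ℚ) (i : Qb) (ε δ : ℤˣ) : Pbar E :=
  tor (E⁄Qb) (rt D i) (rt D (-i)) (r0 Qb D) ε δ

theorem act_tb {i : Qb} {σ : GQ} (h : σ i = i) (ε δ : ℤˣ) :
    act E σ (tb E D i ε δ) = tb E D i ε δ := by
  have := map_tor' (E := E) (D := D) (σ : Qb →ₐ[ℚ] Qb) i ε δ
  rwa [show (σ : Qb →ₐ[ℚ] Qb) i = i from h] at this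

theorem act_tb' {i : Qb} {σ : GQ} (h : σ i = -i) (ε δ : ℤˣ) :
    act E σ (tb E D i ε δ) = tb E D i δ ε := by
  have := map_tor' (E := E) (D := D) (σ : Qb →ₐ[ℚ] Qb) i ε δ
  rw [show (σ : Qb →ₐ[ℚ] Qb) i = -i from h, neg_neg] at this
  exact this.trans (tor_swap ε δ)

theorem sol_of_local (S : Sp E D) (K : Type) [Field K] [Algebra ℚ K] {ε δ : GQ → ℤˣ}
    {i β₁ β₂ : Qb} (hi : i ^ 2 = -1) {A B : ℚ} (n₁ : β₁ ≠ 0) (n₂ : β₂ ≠ 0)
    (p₁ : β₁ ^ 2 = algebraMap ℚ Qb A + algebraMap ℚ Qb B * i)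
    (p₂ : β₂ ^ 2 = algebraMap ℚ Qb A - algebraMap ℚ Qb B * i)
    (g : ∀ σ : GQ, Beh i σ β₁ β₂ (ε σ) (δ σ))
    (h : LocallyTrivial E K fun σ => tb E D i (ε σ) (δ σ)) :
    Sol2 (algebraMap ℚ K A) (algebraMap ℚ K B) (algebraMap ℚ K D) := by
  let ι : Qb →ₐ[ℚ] AlgebraicClosure K := IsAlgClosed.lift
  obtain ⟨R, hR⟩ := h ι
  have := galK K
  refine sol_aux S K (AlgebraicClosure K) (j := ι i) (β₁ := ι β₁) (β₂ := ι β₂)
    (by rw [← map_pow, hi, map_neg, map_one]) ((map_ne_zero _).2 n₁) ((map_ne_zero _).2 n₂)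
    (by rw [← map_pow, p₁, map_add, map_mul, map_rat ι, map_rat ι])
    (by rw [← map_pow, p₂, map_sub, map_mul, map_rat ι, map_rat ι]) R fun τ => ?_
  obtain ⟨σ, hσ⟩ := exists_res ι τ
  refine ⟨ε σ, δ σ, ?_, ?_⟩
  · rcases g σ with ⟨a, b, c⟩ | ⟨a, b, c⟩
    · exact .inl ⟨by rw [← hσ, a], by rw [← hσ, b, map_mul, map_intCast],
        by rw [← hσ, c, map_mul, map_intCast]⟩
    · exact .inr ⟨by rw [← hσ, a, map_neg], by rw [← hσ, b, map_mul, map_intCast],
        by rw [← hσ, c, map_mul, map_intCast]⟩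
  · have := hR τ σ hσ
    beta_reduce at this
    rw [tb, map_tor'] at this
    rw [this]
    abel

/-- every everywhere locally soluble two-covering comes from a rational two-torsion point -/
def SelTriv2 (D : ℚ) : Prop := ∀ A B : ℚ, ¬ (A = 0 ∧ B = 0) →
  (∀ (p : ℕ) [Fact p.Prime],
    Sol2 (algebraMap ℚ ℚ_[p] A) (algebraMap ℚ ℚ_[p] B) (algebraMap ℚ ℚ_[p] D)) →
    ∃ g h c : ℚ, (c = 1 ∨ c = D) ∧ A = c * (g ^ 2 - h ^ 2) ∧ B = c * (2 * g * h)

theorem exists_sign {F : Type*} [Field F] {a b : F} (h : a ^ 2 = b ^ 2) :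
    ∃ e : ℤˣ, a = (e : ℤ) * b := by
  rcases sq_eq_sq_iff_eq_or_eq_neg.1 h with h | h
  · exact ⟨1, by simp [h]⟩
  · exact ⟨-1, by simp [h]⟩

theorem unit_inj {F : Type*} [Field F] [CharZero F] {e d : ℤˣ} {x : F} (h0 : x ≠ 0)
    (h : (e : ℤ) * x = (d : ℤ) * x) : e = d :=
  Units.ext (by exact_mod_cast mul_right_cancel₀ h0 h)

theorem cob_of_sel (S : Sp E D) (hS : SelTriv2 D) {i : Qb} (hi : i ^ 2 = -1) {c : GQ → Pbar E}
    (hc : c ∈ shaCocycles E) (h2 : ∀ σ, c σ + c σ = 0) :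
    ∃ (Q : Pbar E) (e : ℤˣ), Q + Q = tb E D i e e ∧ ∀ σ, c σ = act E σ Q - Q := by
  have S' := S.spl hi
  choose ε δ hε using fun σ => S'.tor_of_two (h2 σ)
  obtain ⟨c1, c2, -, c4⟩ := hc
  have hl (σ τ : GQ) (h : c σ = c τ) : ε σ = ε τ := by
    rw [hε, hε] at h
    exact (S'.tor_inj h).1
  obtain ⟨β₁, β₂, A, B, n₁, n₂, p₁, p₂, g⟩ := kummer2 hi ε δ (fun σ τ h => by
      have := c2 σ τ
      rw [hε, hε, hε τ, act_tb h, S'.tor_add] at this
      exact S'.tor_inj this) (fun σ τ h => by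
      have := c2 σ τ
      rw [hε, hε, hε τ, act_tb' h, S'.tor_add] at this
      exact S'.tor_inj this) ((IsLocallyConstant.iff_eventually_eq _).2 fun σ =>
    (c1.eventually_eq σ).mono fun τ h => hl _ _ h)
  have hc' : c = fun σ => tb E D i (ε σ) (δ σ) := funext hε
  rw [hc'] at c4
  obtain ⟨x, y, C, hC, hA, hB⟩ := hS A B (by
      rintro ⟨rfl, rfl⟩
      simp [n₁] at p₁) fun p _ => sol_of_local S ℚ_[p] hi n₁ n₂ p₁ p₂ g (c4 p)
  let a := algebraMap ℚ Qb
  have cs (σ : GQ) (t : ℚ) : σ (a t) = a t := σ.commutes t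
  have q₁ : β₁ ^ 2 = a C * (a x + a y * i) ^ 2 := by
    rw [p₁, hA, hB]
    simp only [map_mul, map_sub, map_pow, map_ofNat]
    linear_combination -(a C * a y ^ 2) * hi
  have q₂ : β₂ ^ 2 = a C * (a x - a y * i) ^ 2 := by
    rw [p₂, hA, hB]
    simp only [map_mul, map_sub, map_pow, map_ofNat]
    linear_combination -(a C * a y ^ 2) * hi
  have m₁ : a x + a y * i ≠ 0 := fun h => n₁ (pow_eq_zero_iff two_ne_zero |>.1 (by
    rw [q₁, h]; ring))
  have m₂ : a x - a y * i ≠ 0 := fun h => n₂ (pow_eq_zero_iff two_ne_zero |>.1 (by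
    rw [q₂, h]; ring))
  rcases hC with rfl | rfl
  · rw [map_one, one_mul] at q₁ q₂
    obtain ⟨e₁, rfl⟩ := exists_sign q₁
    obtain ⟨e₂, rfl⟩ := exists_sign q₂
    refine ⟨tb E D i e₁ e₂, 1, by rw [S'.two_tor]; simp [tor], fun σ => ?_⟩
    rw [eq_sub_iff_add_eq, hε, S'.tor_add]
    rcases g σ with ⟨h, b, d⟩ | ⟨h, b, d⟩
    all_goals
      simp only [map_mul, map_add, map_sub, map_intCast, cs, h, ← mul_assoc, ← Int.cast_mul,
        ← Units.val_mul, mul_neg, sub_neg_eq_add, ← sub_eq_add_neg] at b d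
    · rw [act_tb h, ← unit_inj m₁ b, ← unit_inj m₂ d]
    · rw [act_tb' h, ← unit_inj m₁ b, ← unit_inj m₂ d]
  · have e := r0_eq Qb C
    have hu : Hy (rt C i) (rt C (-i)) (r0 Qb C) (β₁ * ((i - 4) / (2 * (a x + a y * i))))
        (β₂ * ((-i - 4) / (2 * (a x - a y * i)))) 0 := by
      unfold rt
      constructor
      · rw [mul_pow, mul_pow, q₁, q₂]
        field_simp
        ring
      · rw [mul_pow, q₁]
        field_simp
        linear_combination -e + a C * hi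
    refine ⟨_, -1, (S'.two_hf hu).trans ?_, fun σ => ?_⟩
    · rw [tb, tor, if_neg (by decide), if_neg (by decide), mul_zero]
      congr 1
      linear_combination hu.2
    · rw [eq_sub_iff_add_eq', hε]
      refine ((act_hf S hi (σ : Qb →ₐ[ℚ] Qb) hu _ _).2 ⟨?_, by simp⟩).symm
      rcases g σ with ⟨h, b, d⟩ | ⟨h, b, d⟩
      · refine .inl ⟨h, ?_, ?_⟩
        · change σ _ = _
          simp only [map_mul, map_div₀, map_add, map_sub, map_ofNat, cs, h, b, mul_assoc]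
        · change σ _ = _
          simp only [map_mul, map_div₀, map_neg, map_sub, map_ofNat, cs, h, d, mul_assoc]
      · refine .inr ⟨h, ?_, ?_⟩
        · change σ _ = _
          simp only [map_mul, map_div₀, map_neg, map_sub, map_ofNat, cs, h, b, mul_assoc, neg_neg,
            mul_neg, sub_neg_eq_add]
        · change σ _ = _
          simp only [map_mul, map_div₀, map_add, map_sub, map_ofNat, cs, h, d, mul_assoc,
            mul_neg, ← sub_eq_add_neg]

theorem exists_i : ∃ i : Qb, i ^ 2 = -1 := IsAlgClosed.exists_pow_nat_eq (-1) two_pos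

/-- **The two-torsion of the Tate-Shafarevich group vanishes.** -/
theorem sha_two (S : Sp E D) (hS : SelTriv2 D) (s : Sha E) (h : s + s = 0) : s = 0 := by
  obtain ⟨i, hi⟩ := exists_i
  obtain ⟨c, rfl⟩ := QuotientAddGroup.mk_surjective s
  rw [← QuotientAddGroup.mk_add, QuotientAddGroup.eq_zero_iff, AddSubgroup.mem_addSubgroupOf] at h
  obtain ⟨P, hP⟩ := h
  obtain ⟨Q, rfl⟩ := (S.spl hi).exists_half P
  obtain ⟨Q', -, -, hQ⟩ := cob_of_sel S hS hi (sub_mem c.2 (cob_mem Q)) fun σ => by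
    have : c.1 σ + c.1 σ = _ := hP σ
    rw [map_add] at this
    change c.1 σ - (act E σ Q - Q) + (c.1 σ - (act E σ Q - Q)) = 0
    rw [← sub_eq_zero] at this
    rw [← this]
    abel
  rw [QuotientAddGroup.eq_zero_iff, AddSubgroup.mem_addSubgroupOf]
  refine ⟨Q + Q', fun σ => ?_⟩
  have : c.1 σ - (act E σ Q - Q) = _ := hQ σ
  rw [map_add, eq_add_of_sub_eq this]
  abel

theorem jb_inj : Function.Injective (jb E) :=
  Affine.Point.map_injective (W' := E) (Algebra.ofId ℚ Qb)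

/-- the rational two-torsion -/
noncomputable def t0 (E : WeierstrassCurve ℚ) (D : ℚ) (e : ℤˣ) : E.toAffine.Point :=
  if e = 1 then 0 else pt E (11 * D / 4) 0

theorem jb_t0 (i : Qb) (e : ℤˣ) : jb E (t0 E D e) = tb E D i e e := by
  unfold t0 tb tor
  split_ifs
  · exact map_zero _
  · have := map_pt (E := E) (Algebra.ofId ℚ Qb) (11 * D / 4) 0
    rw [map_zero] at this
    exact this

theorem descent (S : Sp E D) (hS : SelTriv2 D) (P : E.toAffine.Point) :
    ∃ e R, P = t0 E D e + 2 • R := by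
  obtain ⟨i, hi⟩ := exists_i
  obtain ⟨Q, hQ⟩ := (S.spl hi).exists_half (jb E P)
  obtain ⟨Q', e, h1, h2⟩ := cob_of_sel S hS hi (cob_mem Q) fun σ => by
    have := act_jb σ (E := E) P
    rw [← hQ, map_add, ← sub_eq_zero] at this
    rw [← this]
    abel
  obtain ⟨R, hR⟩ := exists_jb (Q := Q - Q') fun σ => by
    have : act E σ Q - Q = _ := h2 σ
    rw [map_sub, eq_add_of_sub_eq this]
    abel
  refine ⟨e, R, jb_inj ?_⟩
  rw [map_add, two_nsmul, map_add, jb_t0 i, ← hQ, ← h1, hR]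
  abel

theorem Sp.elliptic (S : Sp E D) : E.IsElliptic := by
  obtain ⟨i, hi⟩ := exists_i
  have h := (S.spl hi).elliptic.isUnit.ne_zero
  rw [baseChange, map_Δ] at h
  exact ⟨Ne.isUnit fun e => h (by rw [e, map_zero])⟩

theorem finite_pts (S : Sp E D) (hS : SelTriv2 D) : Finite E.toAffine.Point := by
  obtain ⟨i, hi⟩ := exists_i
  let W : WeierstrassCurve ℚ := ⟨0, -3 * D / 4, 0, -D ^ 2 / 2, -55 * D ^ 3 / 4⟩
  have S' : Sp W D := ⟨by simp only [W]; ring, by simp only [W]; ring, by simp only [W]; ring, S.n⟩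
  have := S'.elliptic
  have hf : Finite W.toAffine.Point :=
    P017.H185.finite_of_descent _ rfl rfl (Set.range (t0 W D)) (Set.finite_range _) 2
      two_ne_zero (by
        rintro _ ⟨x, rfl⟩
        refine jb_inj ?_
        rw [two_nsmul, map_add, jb_t0 i, (S'.spl hi).two_tor, map_zero]) fun P => by
        obtain ⟨e, R, h⟩ := descent S' hS P
        exact ⟨_, ⟨e, rfl⟩, R, h⟩
  let g : W.toAffine.Point → E.toAffine.Point := fun P =>
    match P with
    | 0 => 0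
    | .some x y _ => pt E x y
  refine Finite.of_surjective g fun P => ?_
  rcases P with _ | ⟨x, y, h⟩
  · exact ⟨0, rfl⟩
  · refine ⟨.some x (y + (E.a₁ * x + E.a₃) / 2) (Affine.equation_iff_nonsingular.1 ?_),
      (some_eq_pt h).symm⟩
    have h1 := (Affine.equation_iff _ _).1 h.1
    rw [Affine.equation_iff]
    simp only [W]
    linear_combination h1 + x ^ 2 / 4 * S.h2 + x / 2 * S.h4 + 1 / 4 * S.h6

theorem val_torsion (S : Sp E D) [Finite E.toAffine.Point]
    (h4 : ∀ g h : ℚ, g ^ 2 - h ^ 2 = D → g * h ≠ 0) : padicValNat 2 (torsionOrder E) = 1 := by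
  obtain ⟨i, hi⟩ := exists_i
  obtain ⟨τ, hτ⟩ := exists_conj hi
  have S' := S.spl hi
  let G := E.toAffine.Point
  let H : AddSubgroup G := (nsmulAddMonoidHom (α := G) 2).ker
  have hH (P : G) : P ∈ H ↔ jb E P + jb E P = 0 := by
    rw [← map_add, ← two_nsmul, map_eq_zero_iff _ jb_inj]
    rfl
  have hH' (P : G) (h : P ∈ H) : ∃ e, jb E P = tb E D i e e := by
    obtain ⟨e, d, h1⟩ := S'.tor_of_two ((hH _).1 h)
    have h2 := act_jb τ (E := E) P
    rw [h1, act_tb' hτ] at h2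
    rw [(S'.tor_inj h2).1] at h1
    exact ⟨e, h1⟩
  have c1 : Nat.card H = 2 := by
    rw [← Nat.card_eq_of_bijective (fun x : ℤˣ =>
      (⟨t0 E D x, (hH _).2 (by rw [jb_t0 i, S'.two_tor])⟩ : H)) ⟨fun x y h => ?_, fun P => ?_⟩]
    · simp
    · have := congrArg (jb E) (congrArg Subtype.val h)
      simp only [jb_t0 i] at this
      exact (S'.tor_inj this).1
    · obtain ⟨e, h⟩ := hH' _ P.2
      exact ⟨e, Subtype.ext (jb_inj (by rw [h, jb_t0 i]))⟩
  have c2 : ¬ 2 ∣ Nat.card (G ⧸ H) := by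
    intro h
    obtain ⟨x, hx⟩ := exists_prime_addOrderOf_dvd_card' 2 h
    obtain ⟨P, rfl⟩ := QuotientAddGroup.mk_surjective x
    have h1 : P ∉ H := fun h => by
      rw [(QuotientAddGroup.eq_zero_iff P).2 h, addOrderOf_zero] at hx
      exact absurd hx (by norm_num)
    have h2 : P + P ∈ H := by
      have := addOrderOf_nsmul_eq_zero (P : G ⧸ H)
      rwa [hx, two_nsmul, ← QuotientAddGroup.mk_add, QuotientAddGroup.eq_zero_iff] at this
    obtain ⟨e, h3⟩ := hH' _ h2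
    rw [map_add] at h3
    rcases S'.cases' (jb E P) with ⟨e, d, h5⟩ | ⟨u₁, u₂, u₃, hu, h5⟩
    · exact h1 ((hH _).2 (by rw [h5, S'.two_tor]))
    · rw [h5, S'.two_hf hu, tb, tor] at h3
      split_ifs at h3
      · exact S'.pt_ne hu.on2 h3
      have h6 := (S'.pt_inj hu.on2 (by ring) h3).1
      obtain ⟨s, t, a, b⟩ := pair_coord (K := ℚ) hi (t₁ := u₁) (t₂ := u₂) fun σ => by
        have := act_jb σ (E := E) P
        rw [h5] at this
        exact ((act_hf S hi (σ : Qb →ₐ[ℚ] Qb) hu 1 1).1 (by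
          rw [tor, if_pos rfl, if_pos rfl, add_zero]
          exact this)).1
      have e0 := r0_eq Qb D
      have h7 := hu.1
      rw [a] at h6
      rw [a, b] at h7
      unfold rt at h6 h7
      have i0 : i ≠ 0 := by
        rintro rfl
        norm_num at hi
      have k1 : s * t = -D := (algebraMap ℚ Qb).injective (mul_left_cancel₀ i0 (by
        rw [map_mul, map_neg]
        linear_combination h7 / 4))
      have k1' := congrArg (algebraMap ℚ Qb) k1
      rw [map_mul, map_neg] at k1'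
      have k2 : 4 * (s ^ 2 - t ^ 2) = 15 * D := (algebraMap ℚ Qb).injective (by
        simp only [map_mul, map_sub, map_pow, map_ofNat]
        linear_combination 4 * h6 + e0 - 8 * i * k1' - 4 * algebraMap ℚ Qb t ^ 2 * hi)
      refine h4 (2 * (t - 4 * s) / 17) (2 * (-s - 4 * t) / 17) ?_ ?_
      · linear_combination 15 / 289 * k2 - 64 / 289 * k1
      · linear_combination 4 / 289 * k2 + 60 / 289 * k1
  have c3 : torsionOrder E = 2 ^ 1 * Nat.card (G ⧸ H) := by
    rw [torsionOrder, AddCommGroup.torsion_eq_top_iff.2 (isAddTorsion_of_finite), Nat.card_congr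
      AddSubgroup.topEquiv.toEquiv, AddSubgroup.card_eq_card_quotient_mul_card_addSubgroup H, c1]
    ring
  rw [c3, padicValNat.mul (by norm_num) (Nat.card_pos (α := G ⧸ H)).ne', padicValNat.prime_pow,
    padicValNat.eq_zero_of_not_dvd c2]

end Vale.Agent.P014S
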