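import Vale.Agent.P014F.MW

/-!
# Twists of `X₀(17)`: the two-torsion is split by `ℚ(i)`
-/

namespace Vale.Agent.P014S

open WeierstrassCurve Vale.Agent.P014 Vale.Agent.P014F
open scoped Classical

attribute [local instance] galQb

/-- the two-division cubic of `E` is `(4 x - 11 D) (x² + 2 D x + 5 D²)` -/
structure Sp (E : WeierstrassCurve ℚ) (D : ℚ) : Prop where
  h2 : E.a₁ ^ 2 + 4 * E.a₂ = -3 * D
  h4 : 2 * E.a₄ + E.a₁ * E.a₃ = -D ^ 2
  h6 : E.a₃ ^ 2 + 4 * E.a₆ = -55 * D ^ 3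
  n : D ≠ 0

/-- the irrational roots -/
def rt {F : Type*} [Field F] [Algebra ℚ F] (D : ℚ) (j : F) : F := (-1 + 2 * j) * algebraMap ℚ F D

/-- the rational root -/
def r0 (F : Type*) [Field F] [Algebra ℚ F] (D : ℚ) : F := algebraMap ℚ F (11 * D / 4)

variable {E : WeierstrassCurve ℚ} {D : ℚ}

theorem r0_eq (F : Type*) [Field F] [Algebra ℚ F] (D : ℚ) :
    4 * r0 F D = 11 * algebraMap ℚ F D := by
  unfold r0
  rw [← map_ofNat (algebraMap ℚ F) 4, ← map_ofNat (algebraMap ℚ F) 11, ← map_mul, ← map_mul]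
  congr 1
  ring

theorem Sp.spl (S : Sp E D) {F : Type*} [Field F] [Algebra ℚ F] {j : F} (hj : j ^ 2 = -1) :
    Spl (E⁄F) (rt D j) (rt D (-j)) (r0 F D) := by
  have : CharZero F := algebraRat.charZero F
  have n : algebraMap ℚ F D ≠ 0 := (map_ne_zero _).2 S.n
  have e := r0_eq F D
  have h2 := congrArg (algebraMap ℚ F) S.h2
  have h4 := congrArg (algebraMap ℚ F) S.h4
  have h6 := congrArg (algebraMap ℚ F) S.h6
  simp only [map_add, map_mul, map_pow, map_neg, map_ofNat] at h2 h4 h6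
  have k : ∀ i : F, i ^ 2 = -1 → rt D i ≠ r0 F D := by
    intro i hi h
    unfold rt at h
    have h1 : 8 * i = 15 := mul_right_cancel₀ n (by linear_combination 4 * h + e)
    have h3 : (289 : F) = 0 := by linear_combination 64 * hi - (8 * i + 15) * h1
    norm_num at h3
  refine ⟨?_, ?_, ?_, fun h => ?_, k j hj, k (-j) (by rw [neg_sq, hj])⟩
  · change algebraMap ℚ F E.a₁ ^ 2 + 4 * algebraMap ℚ F E.a₂ = _
    unfold rt
    linear_combination h2 + e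
  · change 2 * algebraMap ℚ F E.a₄ + algebraMap ℚ F E.a₁ * algebraMap ℚ F E.a₃ = _
    unfold rt
    linear_combination h4 + algebraMap ℚ F D * e + 8 * algebraMap ℚ F D ^ 2 * hj
  · change algebraMap ℚ F E.a₃ ^ 2 + 4 * algebraMap ℚ F E.a₆ = _
    unfold rt
    linear_combination h6 + (1 - 4 * j ^ 2) * algebraMap ℚ F D ^ 2 * e -
      44 * algebraMap ℚ F D ^ 3 * hj
  · unfold rt at h
    have h1 : j = 0 := mul_right_cancel₀ n (by linear_combination h / 4)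
    rw [h1] at hj
    norm_num at hj

section General

variable {F : Type*} [Field F] {W : WeierstrassCurve F} {r₁ r₂ r₃ u₁ u₂ u₃ : F}

theorem tor_swap (ε δ : ℤˣ) : tor W r₂ r₁ r₃ ε δ = tor W r₁ r₂ r₃ δ ε := by
  unfold tor
  split_ifs <;> rfl

theorem hy_swap (h : Hy r₂ r₁ r₃ u₁ u₂ u₃) : Hy r₁ r₂ r₃ u₂ u₁ u₃ :=
  ⟨by linear_combination -h.1, by linear_combination h.2 - h.1⟩

theorem hf_swap (h : Hy r₂ r₁ r₃ u₁ u₂ u₃) : hf W r₂ u₁ u₂ u₃ = hf W r₁ u₂ u₁ u₃ := by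
  unfold hf
  congr 1
  · linear_combination h.1
  · ring

end General

section Map

variable {A F K : Type*} [CommRing A] [Field F] [Field K] [Algebra ℚ A] [Algebra ℚ F] [Algebra A F]
  [IsScalarTower ℚ A F] [Algebra ℚ K] [Algebra A K] [IsScalarTower ℚ A K] (f : F →ₐ[A] K)

theorem map_rt (j : F) : f (rt D j) = rt D (f j) := by
  unfold rt
  rw [map_mul, map_add, map_mul, map_neg, map_one, map_ofNat, map_rat f]

theorem map_r0 : f (r0 F D) = r0 K D := map_rat f _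

theorem map_tor' (j : F) (ε δ : ℤˣ) :
    Affine.Point.map (W' := E) f (tor (E⁄F) (rt D j) (rt D (-j)) (r0 F D) ε δ) =
      tor (E⁄K) (rt D (f j)) (rt D (-f j)) (r0 K D) ε δ := by
  unfold tor
  split_ifs
  · exact map_zero _
  · rw [map_pt, map_rt, map_zero]
  · rw [map_pt, map_rt, map_zero, map_neg]
  · rw [map_pt, map_r0, map_zero]

theorem map_hf' (j u₁ u₂ u₃ : F) :
    Affine.Point.map (W' := E) f (hf (E⁄F) (rt D j) u₁ u₂ u₃) =
      hf (E⁄K) (rt D (f j)) (f u₁) (f u₂) (f u₃) := by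
  unfold hf
  rw [map_pt]
  simp only [map_add, map_mul, map_rt f]

theorem hy_map {j u₁ u₂ u₃ : F} (h : Hy (rt D j) (rt D (-j)) (r0 F D) u₁ u₂ u₃) :
    Hy (rt D (f j)) (rt D (-f j)) (r0 K D) (f u₁) (f u₂) (f u₃) :=
  ⟨by simpa only [map_sub, map_pow, map_rt f, map_neg] using congrArg f h.1,
    by simpa only [map_sub, map_pow, map_rt f, map_r0 f] using congrArg f h.2⟩

end Map

/-- the action of `τ` on a pair -/
def Beh {L : Type*} [Field L] (j : L) (τ : L → L) (β₁ β₂ : L) (e d : ℤˣ) : Prop :=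
  (τ j = j ∧ τ β₁ = (e : ℤ) * β₁ ∧ τ β₂ = (d : ℤ) * β₂) ∨
    (τ j = -j ∧ τ β₂ = (e : ℤ) * β₁ ∧ τ β₁ = (d : ℤ) * β₂)

section Act

variable {K L : Type*} [Field K] [Field L] [Algebra ℚ K] [Algebra ℚ L] [Algebra K L]
  [IsScalarTower ℚ K L] {j : L}

omit [Algebra ℚ K] [Algebra ℚ L] [IsScalarTower ℚ K L] in
theorem act_j (hj : j ^ 2 = -1) (τ : L →ₐ[K] L) : τ j = j ∨ τ j = -j := by
  have h : (τ j) ^ 2 = j ^ 2 := by rw [← map_pow, hj, map_neg, map_one]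
  exact sq_eq_sq_iff_eq_or_eq_neg.1 h

theorem act_hf (S : Sp E D) (hj : j ^ 2 = -1) (τ : L →ₐ[K] L) {u₁ u₂ u₃ : L}
    (hu : Hy (rt D j) (rt D (-j)) (r0 L D) u₁ u₂ u₃) (e d : ℤˣ) :
    Affine.Point.map (W' := E) τ (hf (E⁄L) (rt D j) u₁ u₂ u₃) =
      hf (E⁄L) (rt D j) u₁ u₂ u₃ + tor (E⁄L) (rt D j) (rt D (-j)) (r0 L D) e d ↔
      Beh j τ u₁ u₂ e d ∧ τ u₃ = (e : ℤ) * (d : ℤ) * u₃ := by
  have : CharZero L := algebraRat.charZero L
  have S' := S.spl hj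
  have h1 := hy_map τ hu
  have j0 : j ≠ -j := fun h => by
    have : j = 0 := by linear_combination h / 2
    rw [this] at hj
    norm_num at hj
  rw [map_hf', S'.hf_add_tor hu]
  rcases act_j hj τ with h | h
  · rw [h] at h1 ⊢
    constructor
    · intro h2
      obtain ⟨a, b, c⟩ := S'.hf_inj h1 (hu.sign e d) h2
      exact ⟨.inl ⟨h, a, b⟩, c⟩
    · rintro ⟨⟨-, a, b⟩ | ⟨a, -⟩, c⟩
      · rw [a, b, c]
      · exact absurd (h.symm.trans a) j0
  · rw [h] at h1 ⊢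
    rw [neg_neg] at h1
    rw [hf_swap h1]
    constructor
    · intro h2
      obtain ⟨a, b, c⟩ := S'.hf_inj (hy_swap h1) (hu.sign e d) h2
      exact ⟨.inr ⟨h, a, b⟩, c⟩
    · rintro ⟨⟨a, -⟩ | ⟨-, a, b⟩, c⟩
      · exact absurd (a.symm.trans h) j0
      · rw [a, b, c]

omit [Algebra ℚ K] [IsScalarTower ℚ K L] in
/-- coordinates of a conjugate pair -/
theorem pair_coord [IsGalois K L] (hj : j ^ 2 = -1) {t₁ t₂ : L}
    (h : ∀ τ : L ≃ₐ[K] L, Beh j τ t₁ t₂ 1 1) :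
    ∃ s t : K, t₁ = algebraMap K L s + algebraMap K L t * j ∧
      t₂ = algebraMap K L s - algebraMap K L t * j := by
  have : CharZero L := algebraRat.charZero L
  have fx (x : L) (hx : ∀ τ : L ≃ₐ[K] L, τ x = x) : ∃ t, algebraMap K L t = x :=
    (InfiniteGalois.mem_range_algebraMap_iff_fixed x).2 hx
  obtain ⟨s, hs⟩ := fx ((t₁ + t₂) / 2) fun τ => by
    rw [map_div₀, map_add, map_ofNat]
    rcases h τ with ⟨-, a, b⟩ | ⟨-, a, b⟩ <;> rw [a, b] <;> push_cast <;> ring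
  obtain ⟨t, ht⟩ := fx ((t₂ - t₁) * j / 2) fun τ => by
    rw [map_div₀, map_mul, map_sub, map_ofNat]
    rcases h τ with ⟨c, a, b⟩ | ⟨c, a, b⟩ <;> rw [a, b, c] <;> push_cast <;> ring
  exact ⟨s, t, by rw [hs, ht]; linear_combination (t₁ - t₂) / 2 * hj,
    by rw [hs, ht]; linear_combination (t₂ - t₁) / 2 * hj⟩

end Act

/-! ### Kummer theory over `ℚ(i)` -/

theorem kummerH {i : Qb} (χ : GQ → ℤˣ)
    (hm' : ∀ σ τ : GQ, σ i = i → τ i = i → χ (σ * τ) = χ σ * χ τ)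
    (hc : IsLocallyConstant χ) : ∃ β : Qb, β ≠ 0 ∧ ∀ σ : GQ, σ i = i → σ β = (χ σ : ℤ) * β := by
  have h1 : χ 1 = 1 := by
    have := hm' 1 1 rfl rfl
    rw [one_mul] at this
    exact left_eq_mul.1 this
  have hinv : ∀ σ : GQ, σ i = i → σ⁻¹ i = i := fun σ h =>
    σ.injective ((AlgEquiv.apply_symm_apply σ i).trans h.symm)
  have hmul : ∀ σ τ : GQ, σ i = i → τ i = i → (σ * τ) i = i := fun σ τ a b => by
    change σ (τ i) = i
    rw [b, a]
  have hi : ∀ σ : GQ, σ i = i → χ σ⁻¹ = χ σ := fun σ h => by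
    have := hm' σ σ⁻¹ h (hinv σ h)
    rw [mul_inv_cancel, h1] at this
    rcases Int.units_eq_one_or (χ σ) with a | a <;> rcases Int.units_eq_one_or (χ σ⁻¹) with b | b <;>
      rw [a, b] at this ⊢
    all_goals exact absurd this (by decide)
  let H : Subgroup GQ :=
    { carrier := {σ | σ i = i ∧ χ σ = 1}
      mul_mem' := fun a b => ⟨hmul _ _ a.1 b.1, by rw [hm' _ _ a.1 b.1, a.2, b.2, one_mul]⟩
      one_mem' := ⟨rfl, h1⟩
      inv_mem' := fun a => ⟨hinv _ a.1, by rw [hi _ a.1, a.2]⟩ }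
  by_cases h0 : ∀ σ : GQ, σ i = i → χ σ = 1
  · exact ⟨1, one_ne_zero, fun σ h => by simp [h0 σ h]⟩
  push Not at h0
  obtain ⟨σ₀, s0, h0⟩ := h0
  have hcl : IsClosed (H : Set GQ) := ((lc_apply i).isClosed_fiber i).inter (hc.isClosed_fiber 1)
  have hfix := InfiniteGalois.fixingSubgroup_fixedField (k := ℚ) (K := Qb) ⟨H, hcl⟩
  have hn : σ₀ ∉ (IntermediateField.fixedField H).fixingSubgroup := by
    intro h
    exact h0 (show σ₀ ∈ H from hfix.le h).2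
  rw [IntermediateField.mem_fixingSubgroup_iff] at hn
  push Not at hn
  obtain ⟨x, hx, hx0⟩ := hn
  rw [IntermediateField.mem_fixedField_iff] at hx
  have hx' : ∀ σ : GQ, σ i = i → χ σ = 1 → σ x = x := fun σ a b => hx σ ⟨a, b⟩
  have m0 : χ σ₀ = -1 := (Int.units_eq_one_or _).resolve_left h0
  have k (σ : GQ) (a : σ i = i) (h : χ σ = -1) : σ x = σ₀ x := by
    have := hx' (σ₀⁻¹ * σ) (hmul _ _ (hinv _ s0) a) (by
      rw [hm' _ _ (hinv _ s0) a, hi _ s0, m0, h]; decide)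
    exact ((AlgEquiv.apply_symm_apply σ₀ (σ x)).symm.trans (congrArg σ₀ this))
  refine ⟨x - σ₀ x, sub_ne_zero.2 hx0.symm, fun σ a => ?_⟩
  rw [map_sub]
  rcases Int.units_eq_one_or (χ σ) with h | h
  · rw [hx' σ a h, show σ (σ₀ x) = σ₀ x from k (σ * σ₀) (hmul _ _ a s0) (by
      rw [hm' _ _ a s0, h, m0, one_mul]), h]
    simp
  · rw [k σ a h, show σ (σ₀ x) = x from hx' (σ * σ₀) (hmul _ _ a s0) (by
      rw [hm' _ _ a s0, h, m0]; decide), h]
    simp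

theorem exists_conj {i : Qb} (hi : i ^ 2 = -1) : ∃ τ : GQ, τ i = -i := by
  by_contra h
  push Not at h
  obtain ⟨x, hx⟩ := (InfiniteGalois.mem_range_algebraMap_iff_fixed (k := ℚ) i).2 fun σ =>
    (act_j hi (σ : Qb →ₐ[ℚ] Qb)).resolve_right (h σ)
  have : x ^ 2 = -1 := (algebraMap ℚ Qb).injective (by rw [map_pow, hx, hi, map_neg, map_one])
  nlinarith [sq_nonneg x]

/-- a cocycle with values in the two-torsion comes from a square root of an element of `ℚ(i)` -/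
theorem kummer2 {i : Qb} (hi : i ^ 2 = -1) (ε δ : GQ → ℤˣ)
    (h1 : ∀ σ τ : GQ, σ i = i → ε (σ * τ) = ε σ * ε τ ∧ δ (σ * τ) = δ σ * δ τ)
    (h2 : ∀ σ τ : GQ, σ i = -i → ε (σ * τ) = ε σ * δ τ ∧ δ (σ * τ) = δ σ * ε τ)
    (hc : IsLocallyConstant ε) :
    ∃ (β₁ β₂ : Qb) (A B : ℚ), β₁ ≠ 0 ∧ β₂ ≠ 0 ∧
      β₁ ^ 2 = algebraMap ℚ Qb A + algebraMap ℚ Qb B * i ∧
      β₂ ^ 2 = algebraMap ℚ Qb A - algebraMap ℚ Qb B * i ∧
      ∀ σ : GQ, Beh i σ β₁ β₂ (ε σ) (δ σ) := by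
  obtain ⟨β, b0, hβ⟩ := kummerH (i := i) ε (fun σ τ a _ => (h1 σ τ a).1) hc
  obtain ⟨τ, hτ⟩ := exists_conj hi
  have hτ' : τ⁻¹ i = -i := τ.injective (by
    rw [map_neg, hτ, neg_neg]
    exact AlgEquiv.apply_symm_apply τ i)
  have hb : ∀ σ : GQ, Beh i σ β ((δ τ : ℤ) * τ β) (ε σ) (δ σ) := by
    intro σ
    rcases act_j hi (σ : Qb →ₐ[ℚ] Qb) with h | h
    · have h : σ i = i := h
      refine .inl ⟨h, hβ σ h, ?_⟩
      have a : (τ⁻¹ * σ * τ) i = i := by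
        change τ⁻¹ (σ (τ i)) = i
        rw [hτ, map_neg, h, map_neg, hτ', neg_neg]
      have b := (h2 τ (τ⁻¹ * σ * τ) hτ).2
      rw [← mul_assoc, mul_inv_cancel_left, (h1 σ τ h).2, mul_comm] at b
      have c : σ (τ β) = τ ((τ⁻¹ * σ * τ) β) := (AlgEquiv.apply_symm_apply τ _).symm
      rw [map_mul, map_intCast, c, hβ _ a, map_mul, map_intCast, ← mul_left_cancel b]
      ring
    · have h : σ i = -i := h
      refine .inr ⟨h, ?_, ?_⟩
      · have a : (σ * τ) i = i := by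
          change σ (τ i) = i
          rw [hτ, map_neg, h, neg_neg]
        rw [map_mul, map_intCast, show σ (τ β) = _ from hβ _ a, (h2 σ τ h).1]
        push_cast
        linear_combination ((ε σ : ℤ) : Qb) * β * sq_unit (F := Qb) (δ τ)
      · have a : (τ⁻¹ * σ) i = i := by
          change τ⁻¹ (σ i) = i
          rw [h, map_neg, hτ', neg_neg]
        have b := (h2 τ (τ⁻¹ * σ) hτ).2
        rw [mul_inv_cancel_left] at b
        have c : σ β = τ ((τ⁻¹ * σ) β) := (AlgEquiv.apply_symm_apply τ _).symm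
        rw [c, hβ _ a, map_mul, map_intCast, b]
        push_cast
        linear_combination -((ε (τ⁻¹ * σ) : ℤ) : Qb) * τ β * sq_unit (F := Qb) (δ τ)
  obtain ⟨A, B, a, b⟩ := pair_coord (K := ℚ) hi (t₁ := β ^ 2) (t₂ := ((δ τ : ℤ) * τ β) ^ 2)
    fun σ => by
      rcases hb σ with ⟨a, b, c⟩ | ⟨a, b, c⟩
      · refine .inl ⟨a, ?_, ?_⟩
        · rw [map_pow, b, mul_pow, sq_unit]
          simp
        · rw [map_pow, c, mul_pow _ (_ * _), sq_unit]
          simp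
      · refine .inr ⟨a, ?_, ?_⟩
        · rw [map_pow, b, mul_pow, sq_unit]
          simp
        · rw [map_pow, c, mul_pow _ (_ * _), sq_unit]
          simp
  exact ⟨β, _, A, B, b0, mul_ne_zero (unit_ne _) ((map_ne_zero _).2 b0), a, b, hb⟩

end Vale.Agent.P014S
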