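import Vale.Agent.P014S.Coc
import Vale.Agent.P014F.Lin

/-!
# Twists of `X₀(17)`: local conditions for the two-descent over `ℚ(i)`
-/

namespace Vale.Agent.P014S

open Vale.Agent.P014F
open scoped Classical

section Field

variable {K : Type*} [Field K] {A B D : K}

theorem Sol2.scale {A' B' g h : K} (h0 : g ^ 2 + h ^ 2 ≠ 0)
    (hA : A = A' * (g ^ 2 - h ^ 2) - 2 * B' * g * h) (hB : B = B' * (g ^ 2 - h ^ 2) + 2 * A' * g * h)
    (H : Sol2 A B D) : Sol2 A' B' D := by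
  obtain ⟨s, t, w, z, n, e1, e2⟩ := H
  subst hA hB
  refine ⟨g * s - h * t, g * t + h * s, (g ^ 2 + h ^ 2) * w, z, fun ⟨a, b, c, d⟩ => n
    ⟨mul_left_cancel₀ h0 (by linear_combination g * a + h * b),
      mul_left_cancel₀ h0 (by linear_combination g * b - h * a),
      (mul_eq_zero.1 c).resolve_left h0, d⟩, by linear_combination e1, by linear_combination e2⟩

variable [CharZero K]

theorem wz_ne {s t w z : K} (hν : A ^ 2 + B ^ 2 ≠ 0) (n : ¬(s = 0 ∧ t = 0 ∧ w = 0 ∧ z = 0))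
    (e1 : A * (s ^ 2 - t ^ 2) - 2 * B * s * t = (A ^ 2 + B ^ 2) * w ^ 2 + 15 * D * z ^ 2)
    (e2 : B * (s ^ 2 - t ^ 2) + 2 * A * s * t = -8 * D * z ^ 2) : ¬ (w = 0 ∧ z = 0) := by
  rintro ⟨rfl, rfl⟩
  have a : s ^ 2 = t ^ 2 := mul_left_cancel₀ hν (by linear_combination A * e1 + B * e2)
  have b : s * t = 0 := mul_left_cancel₀ hν (by linear_combination (A * e2 - B * e1) / 2)
  have c : t = 0 := by
    rcases mul_eq_zero.1 b with h | h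
    · rw [h] at a
      exact pow_eq_zero_iff two_ne_zero |>.1 (by rw [← a]; ring)
    · exact h
  rw [c] at a
  exact n ⟨pow_eq_zero_iff two_ne_zero |>.1 (by rw [a]; ring), c, rfl, rfl⟩

theorem Sol2.norm (H : Sol2 A B D) {ν m : K} (hν : ν ≠ 0) (hm : m ≠ 0)
    (e : A ^ 2 + B ^ 2 = ν * m ^ 2) : ∃ w z y : K, ¬ (w = 0 ∧ z = 0) ∧
      ν * y ^ 2 = (ν * w ^ 2) ^ 2 + 30 * (ν * w ^ 2) * (D * z ^ 2) + 289 * (D * z ^ 2) ^ 2 := by
  obtain ⟨s, t, w, z, n, e1, e2⟩ := H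
  have := wz_ne (e ▸ mul_ne_zero hν (pow_ne_zero 2 hm)) n e1 e2
  refine ⟨m * w, z, m * (s ^ 2 + t ^ 2), fun h => this ⟨(mul_eq_zero.1 h.1).resolve_left hm, h.2⟩,
    ?_⟩
  rw [e] at e1
  linear_combination (A * (s ^ 2 - t ^ 2) - 2 * B * s * t + ν * m ^ 2 * w ^ 2 + 15 * D * z ^ 2) * e1 +
    (B * (s ^ 2 - t ^ 2) + 2 * A * s * t - 8 * D * z ^ 2) * e2 - (s ^ 2 + t ^ 2) ^ 2 * e

theorem Sol2.split (H : Sol2 A B D) (hν : A ^ 2 + B ^ 2 ≠ 0) {j : K} (hj : j ^ 2 = -1) :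
    ∃ u v w z : K, ¬ (w = 0 ∧ z = 0) ∧
      (A + B * j) * u ^ 2 = (A ^ 2 + B ^ 2) * w ^ 2 + -D * ((1 + 4 * j) * z) ^ 2 ∧
      (A - B * j) * v ^ 2 = (A ^ 2 + B ^ 2) * w ^ 2 + -D * ((1 - 4 * j) * z) ^ 2 := by
  obtain ⟨s, t, w, z, n, e1, e2⟩ := H
  refine ⟨s + t * j, s - t * j, w, z, wz_ne hν n e1 e2, ?_, ?_⟩
  · linear_combination e1 + j * e2 + (A * t ^ 2 + 2 * B * s * t + B * t ^ 2 * j + 16 * D * z ^ 2) * hj
  · linear_combination e1 - j * e2 + (A * t ^ 2 + 2 * B * s * t - B * t ^ 2 * j + 16 * D * z ^ 2) * hj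

end Field

variable {p : ℕ} [Fact p.Prime]

/-- additive and stable under small perturbations -/
def St (χ : ℚ_[p] → ZMod 2) : Prop := Ad χ ∧ ∀ x t, ‖t‖ < ‖x‖ → χ (x + t) = χ x

theorem st_vz : St (vz (p := p)) :=
  ⟨ad_vz, fun _ _ h => (vz_congr (norm_pos_iff.1 ((norm_nonneg _).trans_lt h))
    (norm_add_left h).symm).symm⟩

theorem st_psi : St (psi (gL p)) := ⟨ad_psi _, fun _ _ h => psiL_add h⟩

variable {χ : ℚ_[p] → ZMod 2}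

theorem St.dom (h : St χ) {α u β v V : ℚ_[p]} (e : α * u ^ 2 = β * v ^ 2 + V)
    (hV : ‖V‖ < ‖β * v ^ 2‖) : χ α = χ β := by
  have n1 : β * v ^ 2 ≠ 0 := norm_pos_iff.1 ((norm_nonneg _).trans_lt hV)
  have n2 : α * u ^ 2 ≠ 0 := by
    rw [e, ← norm_pos_iff, norm_add_left hV, norm_pos_iff]
    exact n1
  rw [← h.1.of_eq n2 rfl, e, h.2 _ _ hV, h.1.of_eq n1 rfl]

theorem nle_max {a b : ℚ_[p]} {c : ℝ} (ha : ‖a‖ < c) (hb : ‖b‖ < c) : ‖a + b‖ < c :=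
  (Padic.nonarchimedean a b).trans_lt (max_lt ha hb)

theorem nint_le (z : ℤ) (a : ℚ_[p]) : ‖z * a‖ ≤ ‖a‖ := by
  rw [norm_mul]
  exact mul_le_of_le_one_left (norm_nonneg _) (Padic.norm_int_le_one z)

/-- the condition on the norm -/
theorem nu_loc (h17 : ‖(17 : ℚ_[p])‖ = 1) {ν D w z y : ℚ_[p]} (hν : ν ≠ 0) (hD : D ≠ 0)
    (n : ¬ (w = 0 ∧ z = 0))
    (e : ν * y ^ 2 = (ν * w ^ 2) ^ 2 + 30 * (ν * w ^ 2) * (D * z ^ 2) + 289 * (D * z ^ 2) ^ 2) :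
    (∀ χ, St χ → χ ν = 0) ∨
      (vz ν = vz D ∧ (vz D = 1 → ‖(2 : ℚ_[p])‖ = 1 → ∀ χ, St χ → χ ν = χ D)) := by
  obtain ⟨X, hX⟩ : ∃ X, X = ν * w ^ 2 := ⟨_, rfl⟩
  obtain ⟨V, hV⟩ : ∃ V, V = D * z ^ 2 := ⟨_, rfl⟩
  rw [← hX, ← hV] at e
  have b30 : ‖30 * X * V‖ ≤ ‖X‖ * ‖V‖ := by
    rw [mul_assoc, ← norm_mul]
    exact_mod_cast nint_le 30 (X * V)
  have b289 : ‖289 * V ^ 2‖ = ‖V‖ ^ 2 := by
    rw [show (289 : ℚ_[p]) = 17 ^ 2 by norm_num, norm_mul, norm_pow, norm_pow, h17]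
    ring
  have x0 := norm_nonneg X
  have v0 := norm_nonneg V
  rcases lt_trichotomy ‖V‖ ‖X‖ with h | h | h
  · refine .inl fun χ hχ => (hχ.dom (u := y) (β := 1) (v := X) (V := 30 * X * V + 289 * V ^ 2)
      (by linear_combination e) ?_).trans hχ.1.one
    rw [one_mul, norm_pow]
    exact nle_max (b30.trans_lt (by nlinarith)) (b289.trans_lt (by nlinarith))
  · have nX : X ≠ 0 := fun h0 => by
      have h1 : V = 0 := by rwa [h0, norm_zero, norm_eq_zero] at h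
      rw [hX] at h0
      rw [hV] at h1
      exact n ⟨pow_eq_zero_iff two_ne_zero |>.1 ((mul_eq_zero.1 h0).resolve_left hν),
        pow_eq_zero_iff two_ne_zero |>.1 ((mul_eq_zero.1 h1).resolve_left hD)⟩
    have nV : V ≠ 0 := fun h0 => nX (by rwa [h0, norm_zero, eq_comm, norm_eq_zero] at h)
    have k : vz ν = vz D := by
      rw [← ad_vz.of_eq nX hX, ← ad_vz.of_eq nV hV, vz_congr nV h]
    refine .inr ⟨k, fun d1 h2 χ hχ => ?_⟩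
    have x1 : 0 < ‖X‖ := norm_pos_iff.2 nX
    have b4 : ‖4 * X * V‖ = ‖X‖ ^ 2 := by
      rw [show (4 : ℚ_[p]) = 2 * 2 by norm_num, norm_mul, norm_mul, norm_mul, h2, h]
      ring
    have hR : ‖ν * y ^ 2‖ < ‖X * V * 2 ^ 2‖ := by
      rw [show X * V * 2 ^ 2 = 4 * X * V by ring, b4]
      refine lt_of_le_of_ne ?_ fun h3 => ?_
      · rw [e]
        refine (Padic.nonarchimedean _ _).trans (max_le ((Padic.nonarchimedean _ _).trans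
          (max_le (norm_pow _ _).le (b30.trans ?_))) (b289.le.trans ?_)) <;> rw [h]
        rw [sq]
      · have n2 : ν * y ^ 2 ≠ 0 := by
          rw [← norm_pos_iff, h3]
          positivity
        have := vz_congr n2 (h3.trans (norm_pow X 2).symm)
        rw [ad_vz.of_eq n2 rfl, ad_vz.sq nX, k, d1] at this
        exact absurd this (by decide)
    have h4 := hχ.dom (α := 1) (u := X + 17 * V) (by linear_combination -e) hR
    rw [hχ.1.one, hχ.1 _ _ nX nV, hχ.1.of_eq nX hX, hχ.1.of_eq nV hV] at h4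
    linear_combination -h4 - two_z (χ D)
  · refine .inl fun χ hχ => (hχ.dom (u := y) (β := 1) (v := 17 * V) (V := X ^ 2 + 30 * X * V)
      (by linear_combination e) ?_).trans hχ.1.one
    rw [one_mul, norm_pow, norm_mul, h17, one_mul]
    exact nle_max ((norm_pow _ _).trans_lt (by nlinarith)) (b30.trans_lt (by nlinarith))

/-- the condition at a prime dividing `D` -/
theorem loc_p {α ν D π u w z : ℚ_[p]} (hν : ν ≠ 0) (hD : D ≠ 0) (hπ : π ≠ 0)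
    (n : ¬ (w = 0 ∧ z = 0)) (h1 : vz ν = 0) (h2 : vz D = 1)
    (e : α * u ^ 2 = ν * w ^ 2 + D * (π * z) ^ 2) :
    (∀ χ, St χ → χ α = χ ν) ∨ ∀ χ, St χ → χ α = χ D := by
  rcases lt_trichotomy ‖D * (π * z) ^ 2‖ ‖ν * w ^ 2‖ with h | h | h
  · exact .inl fun χ hχ => hχ.dom e h
  · exfalso
    by_cases h0 : ν * w ^ 2 = 0
    · rw [h0, norm_zero, norm_eq_zero] at h
      exact n ⟨pow_eq_zero_iff two_ne_zero |>.1 ((mul_eq_zero.1 h0).resolve_left hν),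
        (mul_eq_zero.1 (pow_eq_zero_iff two_ne_zero |>.1
          ((mul_eq_zero.1 h).resolve_left hD))).resolve_left hπ⟩
    · have h3 : D * (π * z) ^ 2 ≠ 0 := by rwa [← norm_pos_iff, h, norm_pos_iff]
      have := vz_congr h3 h
      rw [ad_vz.of_eq h3 rfl, ad_vz.of_eq h0 rfl, h1, h2] at this
      exact absurd this (by decide)
  · exact .inr fun χ hχ => hχ.dom (by rw [e, add_comm]) h

/-- the condition at `17` -/
theorem loc_17 (hχ : St χ) {α₁ α₂ D π π' u v w z : ℚ_[p]} (n₁ : α₁ ≠ 0) (n₂ : α₂ ≠ 0) (hD : D ≠ 0)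
    (hπ : ‖π'‖ < ‖π‖) (n : ¬ (w = 0 ∧ z = 0))
    (e₁ : α₁ * u ^ 2 = α₁ * α₂ * w ^ 2 + D * (π * z) ^ 2)
    (e₂ : α₂ * v ^ 2 = α₁ * α₂ * w ^ 2 + D * (π' * z) ^ 2) : χ α₁ = 0 ∨ χ α₁ = χ D := by
  rcases lt_or_ge ‖D * (π' * z) ^ 2‖ ‖α₁ * α₂ * w ^ 2‖ with h | h
  · have := hχ.dom e₂ h
    rw [hχ.1 _ _ n₁ n₂] at this
    exact .inl (by linear_combination -this)
  · refine .inr (hχ.dom (by rw [e₁, add_comm]) (h.trans_lt ?_))
    have z0 : z ≠ 0 := by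
      rintro rfl
      simp only [mul_zero, ne_eq, OfNat.ofNat_ne_zero, not_false_eq_true, zero_pow, norm_zero,
        norm_le_zero_iff, mul_eq_zero, n₁, n₂, or_self, pow_eq_zero_iff, false_or] at h
      exact n ⟨h, rfl⟩
    simp only [norm_mul, norm_pow]
    have := norm_pos_iff.2 z0
    have := norm_pos_iff.2 hD
    gcongr

theorem exists_j (h2 : p ≠ 2) {a : ℤ} (ha : (p : ℤ) ∣ a ^ 2 + 1) :
    ∃ j : ℚ_[p], j ^ 2 = -1 ∧ ‖j - a‖ < 1 := by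
  have hp : Prime (p : ℤ) := Nat.prime_iff_prime_int.1 Fact.out
  have h1 : ‖((2 * a : ℤ) : ℤ_[p])‖ = 1 := by
    refine le_antisymm (PadicInt.norm_le_one _) (not_lt.1 fun h => ?_)
    rcases hp.dvd_or_dvd ((PadicInt.norm_int_lt_one_iff_dvd _).1 h) with h | h
    · exact h2 ((Nat.prime_dvd_prime_iff_eq Fact.out Nat.prime_two).1 (Int.natCast_dvd_natCast.1 h))
    · exact hp.not_dvd_one ((dvd_add_right (dvd_pow h two_ne_zero)).1 ha)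
  have e1 : (Polynomial.derivative (Polynomial.X ^ 2 + 1 : Polynomial ℤ)).aeval (a : ℤ_[p]) =
      ((2 * a : ℤ) : ℤ_[p]) := by
    simp [map_ofNat]
  obtain ⟨u, hu, hu2, -⟩ := hensels_lemma (R := ℤ) (F := Polynomial.X ^ 2 + 1) (a := (a : ℤ_[p])) (by
    rw [e1, h1, one_pow]
    have := (PadicInt.norm_int_lt_one_iff_dvd _).2 ha
    simpa using this)
  rw [e1, h1] at hu2
  refine ⟨u, ?_, hu2⟩
  have : u ^ 2 + 1 = 0 := by simpa using hu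
  have := congrArg (fun x : ℤ_[p] => (x : ℚ_[p])) this
  push_cast at this
  linear_combination this

/-! ### primitive solutions -/

theorem prim4 {s t w z : ℚ_[p]} (n : ¬(s = 0 ∧ t = 0 ∧ w = 0 ∧ z = 0)) :
    ∃ (c : ℚ_[p]) (s' t' w' z' : ℤ_[p]), c ≠ 0 ∧ s = c * s' ∧ t = c * t' ∧ w = c * w' ∧
      z = c * z' ∧ ¬ ((p : ℤ_[p]) ∣ s' ∧ (p : ℤ_[p]) ∣ t' ∧ (p : ℤ_[p]) ∣ w' ∧ (p : ℤ_[p]) ∣ z') := by
  obtain ⟨c, hc, h⟩ := Finset.exists_max_image ({s, t, w, z} : Finset ℚ_[p]) (fun x => ‖x‖)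
    (by simp)
  have hs := h s (by simp)
  have ht := h t (by simp)
  have hw := h w (by simp)
  have hz := h z (by simp)
  have c0 : c ≠ 0 := by
    rintro rfl
    simp only [norm_zero, norm_le_zero_iff] at hs ht hw hz
    exact n ⟨hs, ht, hw, hz⟩
  have k : ∀ x : ℚ_[p], ‖x‖ ≤ ‖c‖ → ‖x / c‖ ≤ 1 := fun x hx => by
    rwa [norm_div, div_le_one (norm_pos_iff.2 c0)]
  refine ⟨c, ⟨_, k s hs⟩, ⟨_, k t ht⟩, ⟨_, k w hw⟩, ⟨_, k z hz⟩, c0, (mul_div_cancel₀ _ c0).symm,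
    (mul_div_cancel₀ _ c0).symm, (mul_div_cancel₀ _ c0).symm, (mul_div_cancel₀ _ c0).symm, ?_⟩
  rintro ⟨a1, a2, a3, a4⟩
  replace a1 : ‖s / c‖ < 1 := (PadicInt.norm_lt_one_iff_dvd _).2 a1
  replace a2 : ‖t / c‖ < 1 := (PadicInt.norm_lt_one_iff_dvd _).2 a2
  replace a3 : ‖w / c‖ < 1 := (PadicInt.norm_lt_one_iff_dvd _).2 a3
  replace a4 : ‖z / c‖ < 1 := (PadicInt.norm_lt_one_iff_dvd _).2 a4
  simp only [Finset.mem_insert, Finset.mem_singleton] at hc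
  rcases hc with rfl | rfl | rfl | rfl
  · simp [div_self c0] at a1
  · simp [div_self c0] at a2
  · simp [div_self c0] at a3
  · simp [div_self c0] at a4

theorem Sol2.prim {A B D : ℤ} (H : Sol2 (A : ℚ_[p]) B D) : ∃ s t w z : ℤ_[p],
    ¬ ((p : ℤ_[p]) ∣ s ∧ (p : ℤ_[p]) ∣ t ∧ (p : ℤ_[p]) ∣ w ∧ (p : ℤ_[p]) ∣ z) ∧
    A * (s ^ 2 - t ^ 2) - 2 * B * s * t = (A ^ 2 + B ^ 2) * w ^ 2 + 15 * D * z ^ 2 ∧
    B * (s ^ 2 - t ^ 2) + 2 * A * s * t = -8 * D * z ^ 2 := by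
  obtain ⟨s, t, w, z, n, e1, e2⟩ := H
  obtain ⟨c, s, t, w, z, c0, rfl, rfl, rfl, rfl, h⟩ := prim4 n
  have inj : Function.Injective (PadicInt.Coe.ringHom (p := p)) := Subtype.val_injective
  have co : ∀ x : ℤ_[p], PadicInt.Coe.ringHom x = (x : ℚ_[p]) := fun _ => rfl
  refine ⟨s, t, w, z, h, inj ?_, inj ?_⟩
  all_goals
    simp only [map_add, map_sub, map_mul, map_pow, map_neg, map_ofNat, map_intCast]
    simp only [co]
  · exact mul_left_cancel₀ (pow_ne_zero 2 c0) (by linear_combination e1)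
  · exact mul_left_cancel₀ (pow_ne_zero 2 c0) (by linear_combination e2)

theorem ndvd_int {z : ℤ} (h : ¬ (p : ℤ) ∣ z) : ¬ (p : ℤ_[p]) ∣ (z : ℤ_[p]) := by
  rwa [← PadicInt.norm_lt_one_iff_dvd, PadicInt.norm_int_lt_one_iff_dvd]

/-- odd primes of good reduction -/
theorem loc_odd (h2 : p ≠ 2) {a b c D : ℤ} (hν : ¬ (p : ℤ) ∣ a ^ 2 + b ^ 2) (hD : ¬ (p : ℤ) ∣ D)
    (hc : ¬ (p : ℤ) ∣ c) : ¬ Sol2 (((p * c * a : ℤ)) : ℚ_[p]) (p * c * b : ℤ) D := by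
  intro H
  obtain ⟨s, t, w, z, n, e1, e2⟩ := H.prim
  have hp : Prime (p : ℤ_[p]) := PadicInt.prime_p
  have p0 : (p : ℤ_[p]) ≠ 0 := hp.ne_zero
  have u2 : ¬ (p : ℤ_[p]) ∣ 2 := by
    have := ndvd_int (p := p) (z := 2) fun h =>
      h2 ((Nat.prime_dvd_prime_iff_eq Fact.out Nat.prime_two).1 (Int.natCast_dvd_natCast.1 h))
    simpa using this
  have uν := ndvd_int hν
  have uD := ndvd_int hD
  have uc := ndvd_int hc
  push_cast at e1 e2 uν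
  generalize (p : ℤ_[p]) = l at *
  generalize (a : ℤ_[p]) = a at *
  generalize (b : ℤ_[p]) = b at *
  generalize (c : ℤ_[p]) = c at *
  generalize (D : ℤ_[p]) = D at *
  have k : ∀ {u x : ℤ_[p]}, ¬ l ∣ u → l ∣ u * x → l ∣ x := fun hu h =>
    (hp.dvd_or_dvd h).resolve_left hu
  have k8 : ∀ x : ℤ_[p], l ∣ 2 * (2 * (2 * (D * x ^ 2))) → l ∣ x := fun x h =>
    hp.dvd_of_dvd_pow (k uD (k u2 (k u2 (k u2 h))))
  obtain ⟨z₁, rfl⟩ := k8 z ⟨-(c * b * (s ^ 2 - t ^ 2) + 2 * c * a * s * t), by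
    linear_combination e2⟩
  have f1 : c * (a * (s ^ 2 - t ^ 2) - 2 * b * s * t) =
      l * (c ^ 2 * (a ^ 2 + b ^ 2) * w ^ 2 + 15 * D * z₁ ^ 2) :=
    mul_left_cancel₀ p0 (by linear_combination e1)
  have f2 : c * (b * (s ^ 2 - t ^ 2) + 2 * a * s * t) = l * (-8 * D * z₁ ^ 2) :=
    mul_left_cancel₀ p0 (by linear_combination e2)
  have g1 : l ∣ s ^ 2 - t ^ 2 := k uν (k uc
    ⟨a * (c ^ 2 * (a ^ 2 + b ^ 2) * w ^ 2 + 15 * D * z₁ ^ 2) + b * (-8 * D * z₁ ^ 2), by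
      linear_combination a * f1 + b * f2⟩)
  have g2 : l ∣ s * t := k u2 (k uν (k uc
    ⟨a * (-8 * D * z₁ ^ 2) - b * (c ^ 2 * (a ^ 2 + b ^ 2) * w ^ 2 + 15 * D * z₁ ^ 2), by
      linear_combination a * f2 - b * f1⟩))
  have g3 : l ∣ s ∧ l ∣ t := by
    rcases hp.dvd_or_dvd g2 with h | h
    · exact ⟨h, hp.dvd_of_dvd_pow ((dvd_sub_right (dvd_pow h two_ne_zero)).1 g1)⟩
    · exact ⟨hp.dvd_of_dvd_pow ((dvd_sub_left (dvd_pow h two_ne_zero)).1 g1), h⟩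
  obtain ⟨⟨s₁, rfl⟩, ⟨t₁, rfl⟩⟩ := g3
  obtain ⟨z₂, rfl⟩ := k8 z₁ ⟨-(c * b * (s₁ ^ 2 - t₁ ^ 2) + 2 * c * a * s₁ * t₁),
    mul_left_cancel₀ p0 (by linear_combination f2)⟩
  refine n ⟨dvd_mul_right _ _, dvd_mul_right _ _, hp.dvd_of_dvd_pow (n := 2) (k uν (k uc (k uc
    ⟨c * (a * (s₁ ^ 2 - t₁ ^ 2) - 2 * b * s₁ * t₁) - l * (15 * D * z₂ ^ 2),
      mul_left_cancel₀ p0 (by linear_combination -f1)⟩))), dvd_mul_right _ _⟩

theorem odd_form {x : ℤ_[2]} (h : ¬ (2 : ℤ_[2]) ∣ x) : ∃ y, x = 1 + 2 * y := by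
  have k : ∀ y : ℤ_[2], (2 : ℤ_[2]) ∣ y ↔ PadicInt.toZMod y = 0 := fun y => by
    rw [← RingHom.mem_ker, PadicInt.ker_toZMod, PadicInt.maximalIdeal_eq_span_p,
      Ideal.mem_span_singleton, Nat.cast_ofNat]
  obtain ⟨y, hy⟩ : (2 : ℤ_[2]) ∣ x - 1 := by
    rw [k] at h ⊢
    rw [map_sub, map_one]
    revert h
    generalize PadicInt.toZMod x = c
    revert c
    decide
  exact ⟨y, by linear_combination hy⟩

/-- the prime two -/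
theorem loc_two (e c k : ℤ) :
    ¬ Sol2 (((2 * (1 + 2 * c) * 1 : ℤ)) : ℚ_[2]) (2 * (1 + 2 * c) * (4 * e) : ℤ) (4 * k + 1 : ℤ) := by
  intro H
  obtain ⟨s, t, w, z, n, e1, e2⟩ := H.prim
  have hp : Prime (2 : ℤ_[2]) := by simpa using PadicInt.prime_p (p := 2)
  push_cast at e1 e2 n
  generalize (e : ℤ_[2]) = e at *
  generalize (c : ℤ_[2]) = c at *
  generalize (k : ℤ_[2]) = k at *
  have p0 := hp.ne_zero
  have ev : ∀ x y : ℤ_[2], x ^ 2 = 2 * y → 2 ∣ x := fun x y h => hp.dvd_of_dvd_pow ⟨y, h⟩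
  have par : ∀ x y u : ℤ_[2], x ^ 2 - y ^ 2 = 2 * u → ∃ v, x = y + 2 * v := fun x y u h => by
    obtain ⟨v, hv⟩ := ev (x - y) (u - x * y + y ^ 2) (by linear_combination h)
    exact ⟨v, by linear_combination hv⟩
  obtain ⟨z, rfl⟩ := ev z ((1 + 2 * c) * (s ^ 2 - t ^ 2) - 8 * (1 + 2 * c) * e * s * t -
    2 * (1 + 2 * c) ^ 2 * (1 + 16 * e ^ 2) * w ^ 2 - (30 * k + 7) * z ^ 2) (by
      linear_combination -e1)
  have f1 : (1 + 2 * c) * (s ^ 2 - t ^ 2 - 8 * e * s * t) =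
      2 * (1 + 2 * c) ^ 2 * (1 + 16 * e ^ 2) * w ^ 2 + 30 * (4 * k + 1) * z ^ 2 :=
    mul_left_cancel₀ p0 (by linear_combination e1)
  have f2 : (1 + 2 * c) * (2 * e * (s ^ 2 - t ^ 2) + s * t) = -8 * (4 * k + 1) * z ^ 2 :=
    mul_left_cancel₀ (mul_ne_zero p0 p0) (by linear_combination e2)
  obtain ⟨v, rfl⟩ := par s t (4 * e * s * t - c * (s ^ 2 - t ^ 2 - 8 * e * s * t) +
    (1 + 2 * c) ^ 2 * (1 + 16 * e ^ 2) * w ^ 2 + 15 * (4 * k + 1) * z ^ 2) (by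
      linear_combination f1)
  obtain ⟨t, rfl⟩ := ev t (-4 * (4 * k + 1) * z ^ 2 - c * (2 * e * ((t + 2 * v) ^ 2 - t ^ 2) +
    (t + 2 * v) * t) - e * ((t + 2 * v) ^ 2 - t ^ 2) - v * t) (by linear_combination f2)
  obtain ⟨s, hs⟩ : ∃ s, v = s - t := ⟨v + t, by ring⟩
  subst hs
  have g1 : 2 * (1 + 2 * c) * (s ^ 2 - t ^ 2 - 8 * e * s * t) =
      (1 + 2 * c) ^ 2 * (1 + 16 * e ^ 2) * w ^ 2 + 15 * (4 * k + 1) * z ^ 2 :=
    mul_left_cancel₀ p0 (by linear_combination f1)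
  have g2 : (1 + 2 * c) * (2 * e * (s ^ 2 - t ^ 2) + s * t) = -2 * (4 * k + 1) * z ^ 2 :=
    mul_left_cancel₀ (mul_ne_zero p0 p0) (by linear_combination f2)
  have hw : ¬ (2 : ℤ_[2]) ∣ w := fun h =>
    n ⟨⟨s, by ring⟩, dvd_mul_right _ _, h, dvd_mul_right _ _⟩
  have hz : ¬ (2 : ℤ_[2]) ∣ z := by
    rintro ⟨z, rfl⟩
    exact hw (ev w ((1 + 2 * c) * (s ^ 2 - t ^ 2 - 8 * e * s * t) - 30 * (4 * k + 1) * z ^ 2 -
      (2 * c + 2 * c ^ 2 + 8 * e ^ 2 * (1 + 2 * c) ^ 2) * w ^ 2) (by linear_combination -g1))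
  obtain ⟨w, rfl⟩ := odd_form hw
  obtain ⟨y, hy⟩ := odd_form hz
  obtain ⟨v, rfl⟩ := par s t (4 * e * s * t - c * (s ^ 2 - t ^ 2 - 8 * e * s * t) +
    ((c + c ^ 2 + 4 * e ^ 2 * (1 + 2 * c) ^ 2) * (1 + 2 * w) ^ 2 + (w + w ^ 2) + 15 * k * z ^ 2 +
      15 * (y + y ^ 2) + 4)) (mul_left_cancel₀ p0 (by
        linear_combination g1 + 15 * (z + 1 + 2 * y) * hy))
  obtain ⟨t, rfl⟩ := ev t (-(4 * k + 1) * z ^ 2 - c * (2 * e * ((t + 2 * v) ^ 2 - t ^ 2) +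
    (t + 2 * v) * t) - e * ((t + 2 * v) ^ 2 - t ^ 2) - v * t) (by linear_combination g2)
  exact hz (ev z (-2 * k * z ^ 2 - (1 + 2 * c) * (2 * e * ((t + v) ^ 2 - t ^ 2) + (t + v) * t))
    (mul_left_cancel₀ p0 (by linear_combination g2)))

end Vale.Agent.P014S
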