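import Vale.Agent.P014S.Loc
import Vale.Agent.P014F.Sel
import Vale.Agent.P014B.Iface2

/-!
# Twists of `X₀(17)`: the two-Selmer group
-/

namespace Vale.Agent.P014S

open Vale.Agent.P014 Vale.Agent.P014F Vale.Agent.P014B
open scoped Classical

/-- Hilbert's theorem 90 for `ℚ(i)` -/
theorem h90 {A B : ℚ} (h0 : A ^ 2 + B ^ 2 ≠ 0) {a c m : ℚ}
    (e : A ^ 2 + B ^ 2 = (a ^ 2 + c ^ 2) * m ^ 2) :
    ∃ (b : ℕ) (g h : ℚ), Squarefree b ∧ g ^ 2 + h ^ 2 ≠ 0 ∧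
      A = b * a * (g ^ 2 - h ^ 2) - 2 * (b * c) * g * h ∧
      B = b * c * (g ^ 2 - h ^ 2) + 2 * (b * a) * g * h := by
  have n0 : a ^ 2 + c ^ 2 ≠ 0 := left_ne_zero_of_mul (e ▸ h0)
  have m0 : m ≠ 0 := fun h => h0 (by rw [e, h]; ring)
  obtain ⟨M, hM, G0⟩ : ∃ M : ℚ, M ^ 2 = ((a ^ 2 + c ^ 2) * m) ^ 2 ∧ A * a + B * c + M ≠ 0 := by
    by_cases h : A * a + B * c + (a ^ 2 + c ^ 2) * m = 0
    · exact ⟨-((a ^ 2 + c ^ 2) * m), by ring, fun h' =>
        mul_ne_zero n0 m0 (by linear_combination (h - h') / 2)⟩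
    · exact ⟨_, rfl, h⟩
  obtain ⟨b, u, v, hb, -, u0, v0, hX⟩ :=
    P017.H185.exists_sqf (mul_ne_zero n0 (mul_ne_zero two_ne_zero G0))
  obtain ⟨q, hq⟩ : ∃ q : ℚ, q = u / v := ⟨_, rfl⟩
  have q0 : q ≠ 0 := hq ▸ div_ne_zero (by exact_mod_cast u0) (by exact_mod_cast v0)
  have b0 : (b : ℚ) ≠ 0 := by exact_mod_cast hb.ne_zero
  rw [← hq] at hX
  obtain ⟨g, hg⟩ : ∃ g : ℚ, g * (b * q) = A * a + B * c + M :=
    ⟨_, div_mul_cancel₀ _ (mul_ne_zero b0 q0)⟩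
  obtain ⟨h, hh⟩ : ∃ h : ℚ, h * (b * q) = B * a - A * c :=
    ⟨_, div_mul_cancel₀ _ (mul_ne_zero b0 q0)⟩
  have g0 : g ≠ 0 := fun h => G0 (by rw [← hg, h, zero_mul])
  have k0 : (b : ℚ) * q ^ 2 ≠ 0 := mul_ne_zero b0 (pow_ne_zero 2 q0)
  have k1 : (a ^ 2 + c ^ 2) * (b * (g ^ 2 - h ^ 2)) = A * a + B * c := mul_left_cancel₀ k0 (by
    linear_combination (a ^ 2 + c ^ 2) * ((g * (b * q) + (A * a + B * c + M)) * hg -
      (h * (b * q) + (B * a - A * c)) * hh + hM - (a ^ 2 + c ^ 2) * e) + (A * a + B * c) * hX)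
  have k2 : (a ^ 2 + c ^ 2) * (b * (2 * g * h)) = B * a - A * c := mul_left_cancel₀ k0 (by
    linear_combination (a ^ 2 + c ^ 2) * 2 * (h * (b * q) * hg + (A * a + B * c + M) * hh) +
      (B * a - A * c) * hX)
  have k3 : A = b * a * (g ^ 2 - h ^ 2) - 2 * (b * c) * g * h := mul_left_cancel₀ n0 (by
    linear_combination c * k2 - a * k1)
  have k4 : B = b * c * (g ^ 2 - h ^ 2) + 2 * (b * a) * g * h := mul_left_cancel₀ n0 (by
    linear_combination -c * k1 - a * k2)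
  have k5 : g ^ 2 + h ^ 2 ≠ 0 := by positivity
  rcases Int.natAbs_eq b with hb' | hb'
  · refine ⟨b.natAbs, g, h, Int.squarefree_natAbs.2 hb, k5, ?_⟩
    rw [← Int.cast_natCast, ← hb']
    exact ⟨k3, k4⟩
  · refine ⟨b.natAbs, -h, g, Int.squarefree_natAbs.2 hb, by rwa [neg_sq, add_comm], ?_⟩
    rw [← Int.cast_natCast, show (b.natAbs : ℤ) = -b by omega, Int.cast_neg]
    exact ⟨by linear_combination k3, by linear_combination k4⟩

theorem tz_inj {a b : ℤ} (ha : a = 1 ∨ a = -1) (hb : b = 1 ∨ b = -1) (h : tz a = tz b) : a = b := by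
  rcases ha with rfl | rfl <;> rcases hb with rfl | rfl <;> first | rfl | exact absurd h (by decide)

theorem jac_pm {p : ℕ} (hp : p.Prime) {a : ℤ} (h : ¬ (p : ℤ) ∣ a) :
    jacobiSym a p = 1 ∨ jacobiSym a p = -1 :=
  jacobiSym.eq_one_or_neg_one (Int.isCoprime_iff_gcd_eq_one.1
    (((Nat.prime_iff_prime_int.1 hp).coprime_iff_not_dvd).2 h).symm)

theorem jac_congr {a b : ℤ} : ∀ n : ℕ, (∀ p : ℕ, p.Prime → p ∣ n → jacobiSym a p = jacobiSym b p) →
    jacobiSym a n = jacobiSym b n := by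
  intro n
  induction n using induction_on_primes with
  | zero => simp
  | one => simp
  | prime_mul p m hp ih =>
    intro h
    rcases eq_or_ne m 0 with rfl | hm
    · simp
    rw [jacobiSym.mul_right' _ hp.ne_zero hm, jacobiSym.mul_right' _ hp.ne_zero hm,
      h p hp (dvd_mul_right _ _), ih fun q hq e => h q hq (e.mul_left _)]

theorem mod_four : ∀ n : ℕ, n ≠ 0 → (∀ p : ℕ, p.Prime → p ∣ n → p % 4 = 1) → n % 4 = 1 := by
  intro n
  induction n using induction_on_primes with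
  | zero => simp
  | one => simp
  | prime_mul p m hp ih =>
    intro h0 h
    rw [Nat.mul_mod, h p hp (dvd_mul_right _ _),
      ih (right_ne_zero_of_mul h0) fun q hq e => h q hq (e.mul_left _)]

theorem ad_zero {F : Type} [Field F] [CharZero F] {χ : F → ZMod 2} (hχ : Ad χ) :
    ∀ n : ℕ, n ≠ 0 → (∀ p : ℕ, p.Prime → p ∣ n → χ p = 0) → χ n = 0 := by
  intro n
  induction n using induction_on_primes with
  | zero => simp
  | one => exact fun _ _ => by simpa using hχ.one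
  | prime_mul p m hp ih =>
    intro h0 h
    have hm := right_ne_zero_of_mul h0
    rw [Nat.cast_mul, hχ _ _ (by exact_mod_cast hp.ne_zero) (by exact_mod_cast hm),
      h p hp (dvd_mul_right _ _), ih hm fun q hq e => h q hq (e.mul_left _), add_zero]

theorem vz_nat {p : ℕ} [Fact p.Prime] {n : ℕ} (hn : Squarefree n) :
    (vz (n : ℚ_[p]) = 0 ↔ ¬ p ∣ n) ∧ (vz (n : ℚ_[p]) = 1 ↔ p ∣ n) := by
  have := vz_sqf (p := p) (Int.squarefree_natCast.2 hn)
  rw [Int.cast_natCast, Int.natCast_dvd_natCast] at this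
  rw [this, ind]
  split_ifs with h <;> simp [h]

section Family

variable {d : ℕ} (hs : Squarefree d)
  (hp : ∀ p : ℕ, p.Prime → p ∣ d → p % 4 = 1 ∧ jacobiSym p 17 = 1)

include hp

theorem not17 : ¬ 17 ∣ d := fun h => by
  have := (hp 17 (by norm_num) h).2
  norm_num at this

theorem ne17 {p : ℕ} (h : p ∣ d) : p ≠ 17 := by
  rintro rfl
  exact not17 hp h

theorem ne2 {p : ℕ} (h1 : p.Prime) (h : p ∣ d) : p ≠ 2 := by
  have := (hp p h1 h).1
  omega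

theorem psi17 {p : ℕ} [Fact p.Prime] (h : p ∣ d) : psi (gL p) (17 : ℚ_[p]) = 0 := by
  have h1 := hp p Fact.out h
  have := psiL_nat (p := p) (q := 17) (by norm_num) (ne17 hp h)
  rw [jacobiSym.quadratic_reciprocity_one_mod_four (by norm_num) (Nat.odd_iff.2 (by omega)),
    h1.2] at this
  exact this

include hs

theorem red_step {n : ℕ} (hn : Squarefree n) (h : ∀ l : ℕ, l.Prime → l ∣ n → l = 17 ∨ l ∣ d)
    {κ : ℤ} (hl : ∀ (p : ℕ) [Fact p.Prime], p ∣ d → ¬ (p : ℤ) ∣ κ ∧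
      ((vz (n : ℚ_[p]) = 0 ∧ psi (gL p) (n : ℚ_[p]) = tz (jacobiSym κ p)) ∨
      (vz (n : ℚ_[p]) = 1 ∧
        psi (gL p) (n : ℚ_[p]) + psi (gL p) (d : ℚ_[p]) = tz (jacobiSym κ p)))) :
    ∃ c d₁ d₂ : ℕ, (c = 1 ∨ c = 17) ∧ n = c * d₁ ∧ d₁ * d₂ = d ∧
      (∀ p : ℕ, p.Prime → p ∣ d₂ → jacobiSym d₁ p = jacobiSym κ p) ∧
      ∀ p : ℕ, p.Prime → p ∣ d₁ → jacobiSym d₂ p = jacobiSym κ p := by
  obtain ⟨c, hc⟩ := Nat.gcd_dvd_left n d
  obtain ⟨d₂, h₂⟩ := Nat.gcd_dvd_right n d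
  have g : ∀ l, l ∣ n → l ∣ d → l ∣ n.gcd d := fun l => Nat.dvd_gcd
  generalize n.gcd d = d₁ at hc h₂ g
  have c1 : Nat.Coprime d₁ c := Nat.coprime_of_squarefree_mul (hc ▸ hn)
  have c2 : Nat.Coprime d₁ d₂ := Nat.coprime_of_squarefree_mul (h₂ ▸ hs)
  have nd : ∀ {l a b : ℕ}, l.Prime → Nat.Coprime a b → l ∣ a → ¬ l ∣ b := fun hl hab ha hb =>
    hl.one_lt.ne' (Nat.eq_one_of_dvd_coprimes hab ha hb)
  have hc17 : c = 1 ∨ c = 17 := by
    refine (Nat.dvd_prime (by norm_num)).1 ?_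
    have sc : Squarefree c := (hc ▸ hn).of_mul_right
    rw [← Nat.prod_primeFactors_of_squarefree sc]
    refine Finset.prod_primes_dvd _ (fun l hl => (Nat.prime_of_mem_primeFactors hl).prime)
      fun l hl => ?_
    have l1 := Nat.prime_of_mem_primeFactors hl
    have l2 := Nat.dvd_of_mem_primeFactors hl
    have l3 : l ∣ n := hc ▸ l2.mul_left _
    rcases h l l1 l3 with rfl | l4
    · rfl
    · exact absurd l2 (nd l1 c1 (g l l3 l4))
  have n1 : d₁ ≠ 0 := left_ne_zero_of_mul (h₂ ▸ hs.ne_zero)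
  have n2 : d₂ ≠ 0 := right_ne_zero_of_mul (h₂ ▸ hs.ne_zero)
  have k : ∀ (p : ℕ) [Fact p.Prime], p ∣ d → psi (gL p) (n : ℚ_[p]) = psi (gL p) (d₁ : ℚ_[p]) := by
    intro p _ h1
    rcases hc17 with rfl | rfl
    · rw [hc, mul_one]
    · rw [hc, Nat.cast_mul, ad_psi _ _ _ (by exact_mod_cast n1) (by norm_num), Nat.cast_ofNat,
        psi17 hp h1, add_zero]
  refine ⟨c, d₁, d₂, hc17, hc.trans (mul_comm _ _), h₂.symm, fun p p1 p2 => ?_, fun p p1 p2 => ?_⟩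
  · have := Fact.mk p1
    have p3 : p ∣ d := h₂ ▸ p2.mul_left _
    have p4 : ¬ p ∣ d₁ := nd p1 c2.symm p2
    have p5 : ¬ (p : ℤ) ∣ d₁ := fun e => p4 (Int.natCast_dvd_natCast.1 e)
    obtain ⟨a, ⟨-, b⟩ | ⟨b, -⟩⟩ := hl p p3
    · rw [k p p3, ← Int.cast_natCast, psiL_int p5] at b
      exact tz_inj (jac_pm p1 p5) (jac_pm p1 a) b
    · exact absurd (g p ((vz_nat hn).2.1 b) p3) p4
  · have := Fact.mk p1
    have p3 : p ∣ d := h₂ ▸ p2.mul_right _
    have p5 : ¬ (p : ℤ) ∣ d₂ := fun e => nd p1 c2 p2 (Int.natCast_dvd_natCast.1 e)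
    obtain ⟨a, ⟨b, -⟩ | ⟨-, b⟩⟩ := hl p p3
    · exact absurd (hc ▸ p2.mul_right _) ((vz_nat hn).1.1 b)
    · rw [k p p3, h₂, Nat.cast_mul, ad_psi _ _ _ (by exact_mod_cast n1) (by exact_mod_cast n2),
        ← add_assoc, two_z, zero_add, ← Int.cast_natCast, psiL_int p5] at b
      exact tz_inj (jac_pm p1 p5) (jac_pm p1 a) b

/-- the norm of a locally soluble class -/
theorem stage_one (hR : Red d) {A B : ℚ} (h0 : A ^ 2 + B ^ 2 ≠ 0)
    (H : ∀ (p : ℕ) [Fact p.Prime], Sol2 (A : ℚ_[p]) B d) :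
    ∃ (c d₁ : ℕ) (m : ℚ), (c = 1 ∨ c = 17) ∧ (d₁ = 1 ∨ d₁ = d) ∧
      A ^ 2 + B ^ 2 = (c * d₁ : ℕ) * m ^ 2 := by
  obtain ⟨b, u, v, hb, -, u0, v0, hX⟩ := P017.H185.exists_sqf h0
  obtain ⟨q, hq⟩ : ∃ q : ℚ, q = u / v := ⟨_, rfl⟩
  have q0 : q ≠ 0 := hq ▸ div_ne_zero (by exact_mod_cast u0) (by exact_mod_cast v0)
  rw [← hq] at hX
  have b0 : 0 ≤ b := by
    have : (0 : ℚ) ≤ b * q ^ 2 := hX ▸ by positivity
    exact_mod_cast nonneg_of_mul_nonneg_left this (by positivity)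
  obtain ⟨n, rfl⟩ := Int.eq_ofNat_of_zero_le b0
  have hn : Squarefree n := Int.squarefree_natCast.1 hb
  rw [Int.cast_natCast] at hX
  have L : ∀ (p : ℕ) [Fact p.Prime], p ≠ 17 → (∀ χ, St χ → χ (n : ℚ_[p]) = 0) ∨
      (vz (n : ℚ_[p]) = vz (d : ℚ_[p]) ∧ (vz (d : ℚ_[p]) = 1 → ‖(2 : ℚ_[p])‖ = 1 →
        ∀ χ, St χ → χ (n : ℚ_[p]) = χ d)) := by
    intro p _ h17
    have n0 : (n : ℚ_[p]) ≠ 0 := by exact_mod_cast hn.ne_zero
    obtain ⟨w, z, y, a, e⟩ := (H p).norm (ν := n) (m := q) n0 (by exact_mod_cast q0)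
      (by exact_mod_cast congrArg (Rat.cast : ℚ → ℚ_[p]) hX)
    exact nu_loc (n17 h17) n0 (by exact_mod_cast hs.ne_zero) a e
  obtain ⟨c, d₁, d₂, a1, a2, a3, a4, a5⟩ := red_step hs hp hn (κ := 1) (fun l l1 l2 => by
    have := Fact.mk l1
    by_contra hc
    push Not at hc
    rcases L l hc.1 with h | h
    · exact (vz_nat hn).1.1 (h _ st_vz) l2
    · exact (vz_nat hn).1.1 (h.1.trans ((vz_nat hs).1.2 hc.2)) l2) fun p _ h => by
    refine ⟨(Nat.prime_iff_prime_int.1 Fact.out).not_dvd_one, ?_⟩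
    rw [jacobiSym.one_left]
    have d1 := (vz_nat hs).2.2 h
    rcases L p (ne17 hp h) with h1 | h1
    · exact .inl ⟨h1 _ st_vz, h1 _ st_psi⟩
    · exact .inr ⟨h1.1.trans d1, by
        rw [h1.2 d1 (ntwo (ne2 hp Fact.out h)) _ st_psi, two_z]
        rfl⟩
  simp only [jacobiSym.one_left] at a4 a5
  refine ⟨c, d₁, q, a1, (hR d₁ d₂ a3 a4 a5).imp id fun h => ?_, by rw [hX, a2]⟩
  rw [← a3, h, mul_one]

omit hs hp in
theorem odd_primes {b : ℕ} (hb : Squarefree b) {a c : ℤ}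
    (H : ∀ (p : ℕ) [Fact p.Prime], Sol2 ((b * a : ℤ) : ℚ_[p]) (b * c : ℤ) (d : ℤ)) {l : ℕ}
    (l1 : l.Prime) (l2 : l ∣ b) : l = 2 ∨ (l : ℤ) ∣ a ^ 2 + c ^ 2 ∨ l ∣ d := by
  have := Fact.mk l1
  by_contra hc
  push Not at hc
  obtain ⟨b', rfl⟩ := l2
  refine loc_odd (c := b') hc.1 hc.2.1 (fun e => hc.2.2 (Int.natCast_dvd_natCast.1 e))
    (fun e => ?_) (by simpa only [Nat.cast_mul] using H l)
  exact l1.prime.not_isUnit (hb l (mul_dvd_mul_left l (Int.natCast_dvd_natCast.1 e)))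

theorem d_mod : d % 4 = 1 := mod_four d hs.ne_zero fun p h1 h2 => (hp p h1 h2).1

/-- classes of norm `1` or `17` -/
theorem stage_two {b : ℕ} (hb : Squarefree b) {e κ : ℤ} (he : e = 0 ∨ e = 1)
    (hκ : ∀ (p : ℕ) [Fact p.Prime], p ∣ d → ¬ (p : ℤ) ∣ κ ∧ ∃ j : ℚ_[p], j ^ 2 = -1 ∧
      ‖1 + 4 * e * j‖ = 1 ∧ psi (gL p) (1 + 4 * e * j) = tz (jacobiSym κ p))
    (H : ∀ (p : ℕ) [Fact p.Prime], Sol2 ((b * 1 : ℤ) : ℚ_[p]) (b * (4 * e) : ℤ) (d : ℤ)) :
    ∃ c d₁ d₂ : ℕ, (c = 1 ∨ c = 17) ∧ b = c * d₁ ∧ d₁ * d₂ = d ∧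
      (∀ p : ℕ, p.Prime → p ∣ d₂ → jacobiSym d₁ p = jacobiSym κ p) ∧
      ∀ p : ℕ, p.Prime → p ∣ d₁ → jacobiSym d₂ p = jacobiSym κ p := by
  have h4 := d_mod hs hp
  refine red_step hs hp hb (fun l l1 l2 => ?_) fun p _ h => ?_
  · rcases odd_primes hb H l1 l2 with rfl | h | h
    · exfalso
      obtain ⟨b', rfl⟩ := l2
      have h2 : ¬ 2 ∣ b' := fun e =>
        l1.prime.not_isUnit (hb 2 (mul_dvd_mul_left 2 e))
      refine loc_two e (b' / 2 : ℕ) (d / 4 : ℕ) ?_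
      have := H 2
      rwa [show ((2 * b' : ℕ) : ℤ) = 2 * (1 + 2 * (b' / 2 : ℕ)) by omega,
        show (d : ℤ) = 4 * (d / 4 : ℕ) + 1 by omega] at this
    · rcases he with rfl | rfl
      · exact absurd h (Nat.prime_iff_prime_int.1 l1).not_dvd_one
      · exact .inl ((Nat.prime_dvd_prime_iff_eq l1 (by norm_num)).1 (Int.natCast_dvd_natCast.1 h))
    · exact .inr h
  · obtain ⟨k1, j, hj, k2, k3⟩ := hκ p h
    refine ⟨k1, ?_⟩
    have b0 : (b : ℚ_[p]) ≠ 0 := by exact_mod_cast hb.ne_zero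
    have d0 : (d : ℚ_[p]) ≠ 0 := by exact_mod_cast hs.ne_zero
    have u0 := ne_of_norm k2.ge
    have j0 : j ≠ 0 := by
      rintro rfl
      norm_num at hj
    have hν : ∃ ν : ℚ_[p], ν ≠ 0 ∧ vz ν = 0 ∧ psi (gL p) ν = 0 ∧ 1 + 16 * (e : ℚ_[p]) ^ 2 = ν := by
      rcases he with rfl | rfl
      · exact ⟨1, one_ne_zero, ad_vz.one, (ad_psi _).one, by simp⟩
      · exact ⟨17, by norm_num, vz_unit (n17 (ne17 hp h)), psi17 hp h, by norm_num⟩
    obtain ⟨ν, ν0, ν1, ν2, ν3⟩ := hν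
    have H1 := H p
    push_cast at H1
    obtain ⟨u, -, w, z, n, e1, -⟩ := H1.split (by
      rw [show ((b : ℚ_[p]) * 1) ^ 2 + (b * (4 * e)) ^ 2 = ν * b ^ 2 by rw [← ν3]; ring]
      exact mul_ne_zero ν0 (pow_ne_zero 2 b0)) hj
    have π0 : j * (1 + 4 * j) ≠ 0 := mul_ne_zero j0 fun h => by
      have : (17 : ℚ_[p]) = 0 := by linear_combination 16 * hj + (1 - 4 * j) * h
      norm_num at this
    have := loc_p (α := (b : ℚ_[p]) * (1 + 4 * (e : ℚ_[p]) * j)) (u := u) (w := b * w) (z := z) ν0 d0 π0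
      (fun h => n ⟨(mul_eq_zero.1 h.1).resolve_left b0, h.2⟩) ν1 ((vz_nat hs).2.2 h)
      (by rw [← ν3]; linear_combination e1 - d * ((1 + 4 * j) * z) ^ 2 * hj)
    have a1 : vz (b * (1 + 4 * e * j) : ℚ_[p]) = vz (b : ℚ_[p]) := by
      rw [ad_vz _ _ b0 u0, vz_unit k2, add_zero]
    have a2 := ad_psi (gL p) _ _ b0 u0
    rw [k3] at a2
    rcases this with h1 | h1
    · refine .inl ⟨by rw [← a1, h1 _ st_vz, ν1], ?_⟩
      rw [h1 _ st_psi, ν2] at a2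
      linear_combination -a2 - two_z (tz (jacobiSym κ p))
    · refine .inr ⟨by rw [← a1, h1 _ st_vz, (vz_nat hs).2.2 h], ?_⟩
      rw [h1 _ st_psi] at a2
      linear_combination a2 + two_z (psi (gL p) (b : ℚ_[p]))

/-- classes whose norm is divisible by `d` -/
theorem stage_three {b : ℕ} (hb : Squarefree b) {a c : ℤ} (ha : a ^ 2 + c ^ 2 ∣ 17 * d)
    (hJ : jacobiSym (a - 4 * c) 17 = -1) :
    ¬ ∀ (p : ℕ) [Fact p.Prime], Sol2 ((b * a : ℤ) : ℚ_[p]) (b * c : ℤ) (d : ℤ) := by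
  intro H
  have k : ∀ n : ℕ, n ≠ 0 → (∀ l : ℕ, l.Prime → l ∣ n → l = 2 ∨ l = 17 ∨ l ∣ d) →
      psi (gL 17) (n : ℚ_[17]) = 0 := fun n n0 h => ad_zero (ad_psi _) n n0 fun l l1 l2 => by
    rcases h l l1 l2 with rfl | rfl | h
    · rw [psiL_nat l1 (by norm_num), show jacobiSym ((2 : ℕ) : ℤ) 17 = 1 by norm_num]
      rfl
    · exact psi_p _
    · rw [psiL_nat l1 (ne17 hp h).symm, (hp l l1 h).2]
      rfl
  have k1 := k b hb.ne_zero fun l l1 l2 => (odd_primes hb H l1 l2).imp id fun h => by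
    rcases h with h | h
    · rcases (Nat.prime_iff_prime_int.1 l1).dvd_or_dvd (h.trans ha) with h | h
      · exact .inl ((Nat.prime_dvd_prime_iff_eq l1 (by norm_num)).1 (Int.natCast_dvd_natCast.1 h))
      · exact .inr (Int.natCast_dvd_natCast.1 h)
    · exact .inr h
  have k2 := k d hs.ne_zero fun l _ h => .inr (.inr h)
  obtain ⟨j, hj, hj2⟩ := exists_j (p := 17) (by norm_num) (a := -4) (by norm_num)
  have b0 : (b : ℚ_[17]) ≠ 0 := by exact_mod_cast hb.ne_zero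
  have d0 : (d : ℚ_[17]) ≠ 0 := by exact_mod_cast hs.ne_zero
  have ν0 : ((a : ℚ_[17]) + c * j) * (a - c * j) ≠ 0 := by
    rw [show ((a : ℚ_[17]) + c * j) * (a - c * j) = (a ^ 2 + c ^ 2 : ℤ) by
      push_cast; linear_combination -(c : ℚ_[17]) ^ 2 * hj, Int.cast_ne_zero]
    exact ne_zero_of_dvd_ne_zero (by have := hs.ne_zero; positivity) ha
  have H1 := H 17
  push_cast at H1
  obtain ⟨u, v, w, z, n, e1, e2⟩ := H1.split (by
    rw [show ((b : ℚ_[17]) * a) ^ 2 + (b * c) ^ 2 = (a + c * j) * (a - c * j) * b ^ 2 by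
      linear_combination (b * c) ^ 2 * hj]
    exact mul_ne_zero ν0 (pow_ne_zero 2 b0)) hj
  have near : ∀ x y : ℤ, ¬ (17 : ℤ) ∣ x - 4 * y → ‖(x : ℚ_[17]) + y * j‖ = 1 ∧
      psi (gL 17) ((x : ℚ_[17]) + y * j) = tz (jacobiSym (x - 4 * y) 17) := by
    intro x y h
    have e : (x : ℚ_[17]) + y * j = (x - 4 * y : ℤ) + y * (j - (-4 : ℤ)) := by
      push_cast
      ring
    have h1 : ‖(y : ℚ_[17]) * (j - (-4 : ℤ))‖ < ‖((x - 4 * y : ℤ) : ℚ_[17])‖ := by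
      rw [nint h]
      exact (nint_le _ _).trans_lt hj2
    rw [e, norm_add_left h1, psiL_add h1, psiL_int h, nint h]
    exact ⟨rfl, rfl⟩
  have hj1 : ‖j‖ = 1 := none_of_sq (by rw [hj, norm_neg, norm_one])
  have π1 : ‖j * (1 - 4 * j)‖ < ‖j * (1 + 4 * j)‖ := by
    have h1 := (near 1 4 (by norm_num)).1
    push_cast at h1
    rw [norm_mul, norm_mul, hj1, h1, one_mul, one_mul,
      show 1 - 4 * j = (17 : ℕ) + (-4 : ℤ) * (j - (-4 : ℤ)) by push_cast; ring]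
    exact nlt_add Padic.norm_p_lt_one ((nint_le _ _).trans_lt hj2)
  have h3 := loc_17 st_psi (u := u) (v := v)
    (mul_ne_zero b0 (left_ne_zero_of_mul ν0)) (mul_ne_zero b0 (right_ne_zero_of_mul ν0)) d0 π1 n
    (by linear_combination e1 - (d * ((1 + 4 * j) * z) ^ 2 - (b * c * w) ^ 2) * hj)
    (by linear_combination e2 - (d * ((1 - 4 * j) * z) ^ 2 - (b * c * w) ^ 2) * hj)
  have h4 := (near a c fun h => by
    rw [jacobiSym.mod_left, Nat.cast_ofNat, Int.emod_eq_zero_of_dvd h] at hJ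
    norm_num at hJ).2
  rw [ad_psi _ _ _ b0 (left_ne_zero_of_mul ν0), k1, k2, h4, hJ, or_self] at h3
  exact absurd h3 (by decide)

end Family

theorem odd_rep {d : ℕ} (h4 : d % 4 = 1) {r s : ℤ} (h : r ^ 2 + s ^ 2 = d)
    (hJ : jacobiSym (r + 4 * s) 17 = -1) :
    ∃ r s : ℤ, Odd r ∧ r ^ 2 + s ^ 2 = d ∧ jacobiSym (r + 4 * s) 17 = -1 := by
  rcases Int.even_or_odd r with ⟨x, rfl⟩ | hr
  · refine ⟨s, -(x + x), ?_, by rw [← h]; ring, ?_⟩
    · rcases Int.even_or_odd s with ⟨y, rfl⟩ | hs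
      · have : (d : ℤ) = 4 * (x ^ 2 + y ^ 2) := by rw [← h]; ring
        omega
      · exact hs
    · rw [jacobiSym.mod_left' (a₂ := -4 * (x + x + 4 * s)) (by omega), jacobiSym.mul_left, hJ]
      norm_num
  · exact ⟨r, s, hr, h, hJ⟩

theorem jac_abs {m : ℤ} (hm : Odd m) {d : ℕ} (h4 : d % 4 = 1) :
    jacobiSym m d = jacobiSym d m.natAbs := by
  have ho : Odd d := Nat.odd_iff.2 (by omega)
  rw [jacobiSym.quadratic_reciprocity_one_mod_four h4 (Int.natAbs_odd.2 hm)]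
  rcases Int.natAbs_eq m with h | h
  · rw [← h]
  · conv_lhs => rw [h]
    rw [jacobiSym.neg _ ho, ZMod.χ₄_nat_one_mod_four h4, one_mul]

theorem jac_key {d : ℕ} (hs : Squarefree d) (h4 : d % 4 = 1) {r s : ℤ} (hr : Odd r)
    (h : r ^ 2 + s ^ 2 = d) (hJ : jacobiSym (r + 4 * s) 17 = -1) :
    jacobiSym ((r + 4 * s) * r) d = -1 := by
  have hc : IsCoprime s r := by
    rw [Int.isCoprime_iff_gcd_eq_one]
    by_contra hc
    obtain ⟨l, l1, l2⟩ := Nat.exists_prime_and_dvd hc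
    have a1 : (l : ℤ) ∣ s := (Int.natCast_dvd_natCast.2 l2).trans (Int.gcd_dvd_left s r)
    have a2 : (l : ℤ) ∣ r := (Int.natCast_dvd_natCast.2 l2).trans (Int.gcd_dvd_right s r)
    refine l1.prime.not_isUnit (hs l (Int.natCast_dvd_natCast.1 ?_))
    rw [← h, Nat.cast_mul, sq, sq]
    exact dvd_add (mul_dvd_mul a2 a2) (mul_dvd_mul a1 a1)
  have hm : Odd (r + 4 * s) := hr.add_even ⟨2 * s, by ring⟩
  have g : ∀ m : ℤ, IsCoprime s m → jacobiSym (s ^ 2) m.natAbs = 1 := fun m h =>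
    jacobiSym.sq_one' (Int.isCoprime_iff_gcd_eq_one.1 (by
      rw [Int.natCast_natAbs]
      exact h.abs_right))
  have md : ∀ m x y : ℤ, m ∣ x - y → jacobiSym x m.natAbs = jacobiSym y m.natAbs := fun m x y h =>
    jacobiSym.mod_left' ((Int.modEq_iff_dvd.2 (Int.natAbs_dvd.2 h)).symm)
  rw [jacobiSym.mul_left, jac_abs hr h4, jac_abs hm h4, ← h,
    md r _ (s ^ 2) ⟨r, by ring⟩, g r hc, mul_one,
    md (r + 4 * s) _ (17 * s ^ 2) ⟨r - 4 * s, by ring⟩, jacobiSym.mul_left,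
    g _ (by rw [mul_comm]; exact hc.add_mul_left_right 4), mul_one, ← hJ,
    jac_abs hm (d := 17) (by norm_num)]
  rfl

theorem selTriv {d : ℕ} (hF : Fam2 d) : SelTriv2 d := by
  obtain ⟨hs, hp, hR, r, s, h1, h2⟩ := hF
  have h4 := d_mod hs hp
  obtain ⟨r, s, hr, h1, h2⟩ := odd_rep h4 h1 h2
  have key := jac_key hs h4 hr h1 h2
  intro A B h0 H
  have h0' : A ^ 2 + B ^ 2 ≠ 0 := fun h => h0 ⟨by nlinarith [sq_nonneg A, sq_nonneg B],
    by nlinarith [sq_nonneg A, sq_nonneg B]⟩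
  have H' : ∀ (p : ℕ) [Fact p.Prime], Sol2 (A : ℚ_[p]) B d := fun p _ => by simpa using H p
  have red : ∀ (a c : ℤ) (m : ℚ), A ^ 2 + B ^ 2 = (a ^ 2 + c ^ 2 : ℤ) * m ^ 2 →
      ∃ (b : ℕ) (g h : ℚ), Squarefree b ∧
      A = b * a * (g ^ 2 - h ^ 2) - 2 * (b * c) * g * h ∧
      B = b * c * (g ^ 2 - h ^ 2) + 2 * (b * a) * g * h ∧
      ∀ (p : ℕ) [Fact p.Prime], Sol2 ((b * a : ℤ) : ℚ_[p]) (b * c : ℤ) (d : ℤ) := by
    intro a c m e
    push_cast at e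
    obtain ⟨b, g, h, a1, a2, a3, a4⟩ := h90 h0' e
    refine ⟨b, g, h, a1, a3, a4, fun p _ => ?_⟩
    refine Sol2.scale (g := (g : ℚ_[p])) (h := (h : ℚ_[p])) (A := (A : ℚ_[p])) (B := (B : ℚ_[p]))
      (by exact_mod_cast a2) ?_ ?_ (by simpa using H' p)
    · exact_mod_cast congrArg (Rat.cast : ℚ → ℚ_[p]) a3
    · exact_mod_cast congrArg (Rat.cast : ℚ → ℚ_[p]) a4
  obtain ⟨c, d₁, m, hc, hd, e⟩ := stage_one hs hp hR h0' H'
  rcases hd with rfl | rfl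
  · rcases hc with rfl | rfl
    · obtain ⟨b, g, h, a1, a2, a3, a4⟩ := red 1 (4 * 0) m (by simpa using e)
      obtain ⟨c, d₁, d₂, b1, b2, b3, b4, b5⟩ := stage_two hs hp a1 (κ := 1) (.inl rfl)
        (fun p _ hd => by
          obtain ⟨x, hx⟩ := ZMod.exists_sq_eq_neg_one_iff.2
            (show p % 4 ≠ 3 by have := (hp p Fact.out hd).1; omega)
          obtain ⟨j, hj, -⟩ := exists_j (ne2 hp Fact.out hd) (a := x.val) (by
            rw [← ZMod.intCast_zmod_eq_zero_iff_dvd]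
            push_cast
            rw [ZMod.natCast_zmod_val, sq, ← hx, neg_add_cancel])
          refine ⟨(Nat.prime_iff_prime_int.1 Fact.out).not_dvd_one, j, hj, by simp, ?_⟩
          simpa [tz] using (ad_psi (gL p)).one) a4
      simp only [jacobiSym.one_left] at b4 b5
      have c1 : c = 1 := b1.resolve_right fun h => by
        rcases odd_primes a1 a4 (l := 17) (by norm_num) ⟨d₁, by rw [b2, h]⟩ with h | h | h
        · norm_num at h
        · norm_num at h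
        · exact not17 hp h
      rw [c1, one_mul] at b2
      refine ⟨g, h, b, ?_, by rw [a2]; push_cast; ring, by rw [a3]; push_cast; ring⟩
      rcases hR d₁ d₂ b3 b4 b5 with h | h
      · exact .inl (by rw [b2, h, Nat.cast_one])
      · exact .inr (by rw [b2, ← b3, h, mul_one])
    · exfalso
      obtain ⟨b, g, h, a1, -, -, a4⟩ := red 1 (4 * 1) m (by simpa using e)
      obtain ⟨c, d₁, d₂, -, -, b3, b4, b5⟩ := stage_two hs hp a1 (κ := (r + 4 * s) * r) (.inr rfl)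
        (fun p _ hd => by
          have pp := Nat.prime_iff_prime_int.1 (Fact.out : p.Prime)
          have k1 : ¬ (p : ℤ) ∣ (r + 4 * s) * r := fun h => by
            obtain ⟨d', rfl⟩ := hd
            have := hs.ne_zero
            rw [jacobiSym.mul_right' _ (left_ne_zero_of_mul this) (right_ne_zero_of_mul this),
              jacobiSym.mod_left, Int.emod_eq_zero_of_dvd h,
              jacobiSym.zero_left (Fact.out : p.Prime).one_lt] at key
            norm_num at key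
          have k2 : ¬ (p : ℤ) ∣ r := fun h => k1 (h.mul_left _)
          have k3 : ¬ (p : ℤ) ∣ r + 4 * s := fun h => k1 (h.mul_right _)
          obtain ⟨x, y, hxy⟩ := (pp.coprime_iff_not_dvd.2 k2)
          have k4 : (p : ℤ) ∣ r ^ 2 + s ^ 2 := h1 ▸ Int.natCast_dvd_natCast.2 hd
          obtain ⟨t, ht⟩ := k4
          obtain ⟨j, hj, hj2⟩ := exists_j (ne2 hp Fact.out hd) (a := y * s)
            ⟨y ^ 2 * t + x * (1 + y * r), by
              linear_combination y ^ 2 * ht - (1 + y * r) * hxy⟩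
          have e1 : (r : ℚ_[p]) * (1 + 4 * ((1 : ℤ) : ℚ_[p]) * j) = (r + 4 * s : ℤ) +
              ((4 * r : ℤ) * (j - (y * s : ℤ)) + (-4 * s * x : ℤ) * (p : ℚ_[p])) := by
            have := congrArg (Int.cast : ℤ → ℚ_[p]) hxy
            push_cast at this ⊢
            linear_combination 4 * (s : ℚ_[p]) * this
          have e2 : ‖((4 * r : ℤ) : ℚ_[p]) * (j - (y * s : ℤ)) + (-4 * s * x : ℤ) * (p : ℚ_[p])‖ <
              ‖((r + 4 * s : ℤ) : ℚ_[p])‖ := by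
            rw [nint k3]
            exact nlt_add ((nint_le _ _).trans_lt hj2)
              ((nint_le _ _).trans_lt Padic.norm_p_lt_one)
          have e3 := congrArg norm e1
          rw [norm_add_left e2, norm_mul, nint k2, nint k3, one_mul] at e3
          refine ⟨k1, j, hj, e3, ?_⟩
          have e4 := congrArg (psi (gL p)) e1
          rw [psiL_add e2, ad_psi _ _ _ (ne_of_norm (nint k2).ge) (ne_of_norm e3.ge)] at e4
          rw [← psiL_int k1, Int.cast_mul,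
            ad_psi _ _ _ (ne_of_norm (nint k3).ge) (ne_of_norm (nint k2).ge), ← e4]
          linear_combination -two_z (psi (gL p) (r : ℚ_[p]))) a4
      have n1 : d₁ ≠ 0 := left_ne_zero_of_mul (b3 ▸ hs.ne_zero)
      have n2 : d₂ ≠ 0 := right_ne_zero_of_mul (b3 ▸ hs.ne_zero)
      have m1 : d₁ % 4 = 1 := mod_four d₁ n1 fun p a b => (hp p a (b3 ▸ b.mul_right _)).1
      have m2 : d₂ % 4 = 1 := mod_four d₂ n2 fun p a b => (hp p a (b3 ▸ b.mul_left _)).1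
      rw [← b3, jacobiSym.mul_right' _ n1 n2, ← jac_congr d₁ b5, ← jac_congr d₂ b4,
        jacobiSym.quadratic_reciprocity_one_mod_four m1 (Nat.odd_iff.2 (by omega))] at key
      nlinarith [sq_nonneg (jacobiSym d₂ d₁)]
  · exfalso
    rcases hc with rfl | rfl
    · obtain ⟨b, g, h, a1, -, -, a4⟩ := red r (-s) m (by rw [e, neg_sq, h1]; simp)
      exact stage_three hs hp a1 ⟨17, by rw [← h1]; ring⟩ (by rwa [mul_neg, sub_neg_eq_add]) a4
    · obtain ⟨b, g, h, a1, -, -, a4⟩ := red (r + 4 * s) (4 * r - s) m (by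
        rw [e, show (r + 4 * s) ^ 2 + (4 * r - s) ^ 2 = 17 * d₁ by rw [← h1]; ring]
        simp)
      refine stage_three hs hp a1 ⟨1, by rw [← h1]; ring⟩ ?_ a4
      rw [jacobiSym.mod_left' (a₂ := 2 * (r + 4 * s)) (by omega), jacobiSym.mul_left, h2]
      norm_num

theorem sel2 : Sel2Stmt := by
  intro k d hk hF
  have d0 : d ≠ 0 := hF.1.ne_zero
  have hk' : (d : ℚ) = 4 * k + 1 := by exact_mod_cast hk.symm
  have S : Sp (x17 k) d := ⟨by simp only [x17, hk']; ring, by simp only [x17, hk']; ring,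
    by simp only [x17, hk']; ring, by exact_mod_cast d0⟩
  have hS := selTriv hF
  have hf := finite_pts S hS
  refine ⟨hf, card_primary (sha_two S hS), val_torsion S fun g h e h0 => ?_⟩
  rcases mul_eq_zero.1 h0 with rfl | rfl
  · have : (0 : ℚ) < d := by positivity
    nlinarith [sq_nonneg h]
  · have h1 : IsSquare d := Rat.isSquare_natCast_iff.1 ⟨g, by linear_combination -e⟩
    obtain ⟨m, hm⟩ := h1
    have h2 : m = 1 := Nat.isUnit_iff.1 (hF.1 m (hm ▸ dvd_rfl))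
    obtain ⟨-, -, -, r, s, a, b⟩ := hF
    rw [hm, h2, mul_one, Nat.cast_one] at a
    have r1 : -1 ≤ r ∧ r ≤ 1 := by constructor <;> nlinarith [sq_nonneg s]
    have s1 : -1 ≤ s ∧ s ≤ 1 := by constructor <;> nlinarith [sq_nonneg r]
    obtain ⟨r1, r2⟩ := r1
    obtain ⟨s1, s2⟩ := s1
    interval_cases r <;> interval_cases s <;> revert a b <;> norm_num

end Vale.Agent.P014S
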